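import Mathlib

set_option autoImplicit false

namespace Crest.Agent.H5.Egy

open Finset

/-- `x` is a sum of at most `t` divisors of `M`. -/
def SD (M t x : ℕ) : Prop :=
  ∃ s : Multiset ℕ, Multiset.card s ≤ t ∧ (∀ d ∈ s, d ∣ M) ∧ s.sum = x

lemma SD.zero (M t : ℕ) : SD M t 0 := ⟨0, by simp, by simp, by simp⟩

lemma SD.single {M d : ℕ} (h : d ∣ M) : SD M 1 d := ⟨{d}, by simp, by simpa using h, by simp⟩

lemma SD.mono {M M' t t' x : ℕ} (h : SD M t x) (hM : M ∣ M') (ht : t ≤ t') : SD M' t' x := by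
  obtain ⟨s, h1, h2, h3⟩ := h
  exact ⟨s, h1.trans ht, fun d hd => (h2 d hd).trans hM, h3⟩

lemma SD.add {M t t' x y : ℕ} (h : SD M t x) (h' : SD M t' y) : SD M (t + t') (x + y) := by
  obtain ⟨s, h1, h2, h3⟩ := h
  obtain ⟨s', h1', h2', h3'⟩ := h'
  refine ⟨s + s', by simp; omega, ?_, by simp [h3, h3']⟩
  intro d hd
  rcases Multiset.mem_add.1 hd with h | h
  · exact h2 d h
  · exact h2' d h

lemma SD.mul {M t x : ℕ} (g : ℕ) (h : SD M t x) : SD (g * M) t (g * x) := by
  obtain ⟨s, h1, h2, h3⟩ := h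
  refine ⟨s.map (fun d => g * d), by simpa using h1, ?_, ?_⟩
  · intro d hd
    obtain ⟨e, he, rfl⟩ := Multiset.mem_map.1 hd
    exact Nat.mul_dvd_mul_left g (h2 e he)
  · rw [Multiset.sum_map_mul_left, Multiset.map_id', h3]

/-- `q` is a sum of at most `t` unit fractions (repetitions allowed). -/
def UF (t : ℕ) (q : ℚ) : Prop :=
  ∃ s : Multiset ℕ, Multiset.card s ≤ t ∧ (∀ n ∈ s, 0 < n) ∧
    (s.map (fun n : ℕ => (1 : ℚ) / (n : ℚ))).sum = q

lemma UF.zero (t : ℕ) : UF t 0 := ⟨0, by simp, by simp, by simp⟩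

lemma UF.single {n : ℕ} (h : 0 < n) : UF 1 (1 / (n : ℚ)) :=
  ⟨{n}, by simp, by simpa using h, by simp⟩

lemma UF.mono {t t' : ℕ} {q : ℚ} (h : UF t q) (ht : t ≤ t') : UF t' q := by
  obtain ⟨s, h1, h2, h3⟩ := h
  exact ⟨s, h1.trans ht, h2, h3⟩

lemma UF.add {t t' : ℕ} {q q' : ℚ} (h : UF t q) (h' : UF t' q') : UF (t + t') (q + q') := by
  obtain ⟨s, h1, h2, h3⟩ := h
  obtain ⟨s', h1', h2', h3'⟩ := h'
  refine ⟨s + s', by simp; omega, ?_, by rw [Multiset.map_add, Multiset.sum_add, h3, h3']⟩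
  intro d hd
  rcases Multiset.mem_add.1 hd with h | h
  · exact h2 d h
  · exact h2' d h

/-- some positive multiple of `m` is a sum of at most `t` divisors of `M`. -/
def Good (M t m : ℕ) : Prop := ∃ c, 0 < c ∧ SD M t (m * c)

lemma Good.zero (M t : ℕ) : Good M t 0 := ⟨1, one_pos, by simpa using SD.zero M t⟩

lemma Good.uf {M t m Den : ℕ} (h : Good M t m) (hM : M ∣ Den) (hD : 0 < Den) :
    UF t ((m : ℚ) / (Den : ℚ)) := by
  obtain ⟨c, hc, s, h1, h2, h3⟩ := h
  refine ⟨s.map (fun d => c * (Den / d)), by simpa using h1, ?_, ?_⟩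
  · intro n hn
    obtain ⟨d, hd, rfl⟩ := Multiset.mem_map.1 hn
    have hdD : d ∣ Den := (h2 d hd).trans hM
    exact Nat.mul_pos hc (Nat.div_pos (Nat.le_of_dvd hD hdD) (Nat.pos_of_dvd_of_pos hdD hD))
  · rw [Multiset.map_map]
    have : ∀ d ∈ s, ((fun n : ℕ => (1 : ℚ) / (n : ℚ)) ∘ fun d => c * (Den / d)) d
        = (d : ℚ) * (1 / ((c : ℚ) * Den)) := by
      intro d hd
      have hdD : d ∣ Den := (h2 d hd).trans hM
      have hd0 : 0 < d := Nat.pos_of_dvd_of_pos hdD hD
      obtain ⟨e, rfl⟩ := hdD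
      have he : 0 < e := Nat.pos_of_mul_pos_left hD
      simp only [Function.comp, Nat.mul_div_cancel_left _ hd0]
      push_cast
      field_simp
    rw [Multiset.map_congr rfl this, Multiset.sum_map_mul_right]
    have h4 : (s.map (fun d : ℕ => (d : ℚ))).sum = ((m * c : ℕ) : ℚ) := by
      rw [← h3]; push_cast; rfl
    rw [h4]
    push_cast
    field_simp

/-- finiteness of the set of representations. -/
lemma finite_reps (t : ℕ) : ∀ q : ℚ, {s : Multiset ℕ | Multiset.card s = t ∧ (∀ n ∈ s, 0 < n) ∧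
    (s.map (fun n : ℕ => (1 : ℚ) / (n : ℚ))).sum = q}.Finite := by
  induction t with
  | zero =>
    intro q
    refine (Set.finite_singleton (0 : Multiset ℕ)).subset ?_
    intro s hs
    simpa using hs.1
  | succ t ih =>
    intro q
    have hfin : (⋃ n ∈ Set.Iic (⌈((t + 1 : ℕ) : ℚ) / q⌉₊),
        (fun s : Multiset ℕ => n ::ₘ s) '' {s : Multiset ℕ | Multiset.card s = t ∧
          (∀ n ∈ s, 0 < n) ∧
          (s.map (fun n : ℕ => (1 : ℚ) / (n : ℚ))).sum = q - 1 / (n : ℚ)}).Finite :=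
      (Set.finite_Iic _).biUnion (fun n _ => (ih _).image _)
    refine hfin.subset ?_
    rintro s ⟨h1, h2, h3⟩
    have hne : s.toFinset.Nonempty := by
      rw [Multiset.toFinset_nonempty]
      rintro rfl
      simp at h1
    obtain ⟨n, hn, hmin⟩ := s.toFinset.exists_min_image id hne
    rw [Multiset.mem_toFinset] at hn
    have hn0 : (0 : ℚ) < n := by exact_mod_cast h2 n hn
    have hle : q ≤ ((t + 1 : ℕ) : ℚ) * (1 / (n : ℚ)) := by
      rw [← h3, ← h1]
      have := Multiset.sum_le_card_nsmul (s.map (fun n : ℕ => (1 : ℚ) / (n : ℚ))) (1 / (n : ℚ))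
        (by
          intro x hx
          obtain ⟨k, hk, rfl⟩ := Multiset.mem_map.1 hx
          have : n ≤ k := hmin k (Multiset.mem_toFinset.2 hk)
          exact one_div_le_one_div_of_le hn0 (by exact_mod_cast this))
      simpa using this
    obtain ⟨s', rfl⟩ := Multiset.exists_cons_of_mem hn
    have hq : 0 < q := by
      rw [← h3, Multiset.map_cons, Multiset.sum_cons]
      have : 0 ≤ (s'.map (fun n : ℕ => (1 : ℚ) / (n : ℚ))).sum :=
        Multiset.sum_nonneg (by
          intro x hx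
          obtain ⟨k, _, rfl⟩ := Multiset.mem_map.1 hx
          positivity)
      positivity
    simp only [Set.mem_iUnion, Set.mem_image, Set.mem_Iic]
    refine ⟨n, ?_, s', ⟨by simpa using h1, fun k hk => h2 k (Multiset.mem_cons_of_mem hk), ?_⟩, rfl⟩
    · have : (n : ℚ) ≤ ((t + 1 : ℕ) : ℚ) / q := by
        rw [le_div_iff₀ hq]
        rw [mul_one_div, le_div_iff₀ hn0] at hle
        linarith
      exact_mod_cast this.trans (Nat.le_ceil _)
    · rw [← h3, Multiset.map_cons, Multiset.sum_cons]; ring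

lemma pot_lt {n k : ℕ} (h : k + 1 ≤ n) :
    ((1 : ℚ) / 3) ^ n + ((1 : ℚ) / 3) ^ n < ((1 : ℚ) / 3) ^ k := by
  have h1 : ((1 : ℚ) / 3) ^ n ≤ ((1 : ℚ) / 3) ^ (k + 1) :=
    pow_le_pow_of_le_one (by norm_num) (by norm_num) h
  have h2 : (0 : ℚ) < ((1 : ℚ) / 3) ^ k := by positivity
  rw [pow_succ] at h1
  linarith

/-- repetitions can be removed without increasing the number of terms. -/
lemma UF.distinct {t : ℕ} {q : ℚ} (h : UF t q) (hq : q < 1) :
    ∃ S : Finset ℕ, (∀ n ∈ S, 2 ≤ n) ∧ S.card ≤ t ∧ ∑ n ∈ S, (1 : ℚ) / (n : ℚ) = q := by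
  classical
  set R : Set (Multiset ℕ) := {s : Multiset ℕ | Multiset.card s ≤ t ∧ (∀ n ∈ s, 0 < n) ∧
    (s.map (fun n : ℕ => (1 : ℚ) / (n : ℚ))).sum = q} with hR
  have hfin : R.Finite := by
    refine ((Set.finite_Iic t).biUnion (fun k _ => finite_reps k q)).subset ?_
    rintro s ⟨h1, h2, h3⟩
    simp only [Set.mem_iUnion, Set.mem_Iic]
    exact ⟨_, h1, rfl, h2, h3⟩
  have hne : R.Nonempty := h
  obtain ⟨s, ⟨h1, h2, h3⟩, hmax⟩ := Set.exists_max_image R
    (fun s => (s.map (fun n : ℕ => ((1 : ℚ) / 3) ^ n)).sum) hfin hne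
  have hge : ∀ n ∈ s, 2 ≤ n := by
    intro n hn
    by_contra hlt
    have hn1 : n = 1 := by have := h2 n hn; omega
    subst hn1
    obtain ⟨s', rfl⟩ := Multiset.exists_cons_of_mem hn
    rw [Multiset.map_cons, Multiset.sum_cons] at h3
    have : 0 ≤ (s'.map (fun n : ℕ => (1 : ℚ) / (n : ℚ))).sum :=
      Multiset.sum_nonneg (by
        intro x hx
        obtain ⟨k, _, rfl⟩ := Multiset.mem_map.1 hx
        positivity)
    norm_num at h3
    simp only [one_div] at this
    linarith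
  have hnd : s.Nodup := by
    rw [Multiset.nodup_iff_ne_cons_cons]
    rintro n s' rfl
    have hn2 : 2 ≤ n := hge n (by simp)
    have hpos' : ∀ k ∈ s', 0 < k := fun k hk => h2 k (by simp [hk])
    simp only [Multiset.map_cons, Multiset.sum_cons, Multiset.card_cons] at h1 h3 hmax
    rcases Nat.even_or_odd' n with ⟨k, rfl | rfl⟩
    · have hk : 0 < k := by omega
      have hmem : (k ::ₘ s') ∈ R := by
        refine ⟨by simp; omega, ?_, ?_⟩
        · intro j hj
          rcases Multiset.mem_cons.1 hj with rfl | hj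
          · exact hk
          · exact hpos' j hj
        · rw [Multiset.map_cons, Multiset.sum_cons, ← h3]
          push_cast
          field_simp
          ring
      have := hmax _ hmem
      simp only [Multiset.map_cons, Multiset.sum_cons] at this
      have h5 := pot_lt (n := 2 * k) (k := k) (by omega)
      linarith
    · have hk : 0 < k := by omega
      have hmem : ((k + 1) ::ₘ ((2 * k + 1) * (k + 1)) ::ₘ s') ∈ R := by
        refine ⟨by simp; omega, ?_, ?_⟩
        · intro j hj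
          rcases Multiset.mem_cons.1 hj with rfl | hj
          · omega
          rcases Multiset.mem_cons.1 hj with rfl | hj
          · positivity
          · exact hpos' j hj
        · rw [Multiset.map_cons, Multiset.sum_cons, Multiset.map_cons, Multiset.sum_cons, ← h3]
          push_cast
          field_simp
          ring
      have := hmax _ hmem
      simp only [Multiset.map_cons, Multiset.sum_cons] at this
      have h5 := pot_lt (n := 2 * k + 1) (k := k + 1) (by omega)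
      have h6 : (0 : ℚ) < ((1 : ℚ) / 3) ^ ((2 * k + 1) * (k + 1)) := by positivity
      linarith
  refine ⟨⟨s, hnd⟩, hge, h1, h3⟩

/-- one greedy step -/
lemma greedy_step {a b x : ℕ} (ha : 0 < a) (hx : a * x ≤ b) (hb : 0 < b) :
    ∃ a' b' : ℕ, 0 < a' ∧ a' ≤ a ∧ a' * (x * x) ≤ b' ∧ b * (x + 1) ≤ b' ∧
      b' + 1 ≤ (b + 1) * (b + 1) ∧
      UF 1 ((a : ℚ) / b - (a' : ℚ) / b') := by
  set n := b / a + 1 with hn
  have h1 : b < a * n := by rw [hn]; exact Nat.lt_mul_div_succ b ha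
  have h2 : a * (b / a) ≤ b := Nat.mul_div_le b a
  have h3 : x ≤ b / a := (Nat.le_div_iff_mul_le ha).2 (by rwa [mul_comm])
  have h4 : b / a ≤ b := Nat.div_le_self b a
  have h5 : a * n = a * (b / a) + a := by rw [hn]; ring
  refine ⟨a * n - b, b * n, by omega, by omega, ?_, ?_, ?_, ?_⟩
  · calc (a * n - b) * (x * x) ≤ a * (x * x) := Nat.mul_le_mul_right _ (by omega)
      _ = (a * x) * x := by ring
      _ ≤ b * n := Nat.mul_le_mul hx (by omega)
  · exact Nat.mul_le_mul_left _ (by omega)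
  · have : b * n ≤ b * (b + 1) := Nat.mul_le_mul_left _ (by omega)
    nlinarith
  · have hn0 : 0 < n := by omega
    have : (a : ℚ) / b - ((a * n - b : ℕ) : ℚ) / ((b * n : ℕ) : ℚ) = 1 / (n : ℚ) := by
      rw [Nat.cast_sub h1.le]
      push_cast
      field_simp
      ring
    rw [this]
    exact UF.single hn0

lemma greedy (i : ℕ) {a b : ℕ} (ha : 0 < a) (hab : a < b) :
    ∃ a' b' : ℕ, 0 < a' ∧ a' ≤ a ∧ a' * 2 ^ (2 ^ i) ≤ b' ∧ b ≤ b' ∧
      b' + 1 ≤ (b + 1) ^ (2 ^ (i + 1)) ∧ UF (i + 1) ((a : ℚ) / b - (a' : ℚ) / b') := by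
  induction i with
  | zero =>
    obtain ⟨a', b', h1, h2, -, h4, h5, h6⟩ := greedy_step (x := 1) ha (by omega) (by omega : 0 < b)
    refine ⟨a', b', h1, h2, by simp; omega, by omega, by simpa [pow_two] using h5, h6⟩
  | succ i ih =>
    obtain ⟨a', b', h1, h2, h3, h4, h5, h6⟩ := ih
    obtain ⟨a'', b'', k1, k2, k3, k4, k5, k6⟩ := greedy_step h1 h3 (by omega : 0 < b')
    refine ⟨a'', b'', k1, k2.trans h2, ?_, ?_, ?_, ?_⟩
    · rwa [pow_succ, pow_mul, pow_two]
    · have : b' * 1 ≤ b' * (2 ^ 2 ^ i + 1) := Nat.mul_le_mul_left _ (Nat.le_add_left _ _)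
      omega
    · rw [pow_succ 2 (i + 1), pow_mul, pow_two]
      exact k5.trans (Nat.mul_le_mul h5 h5)
    · have := h6.add k6
      convert this using 1
      ring

end Crest.Agent.H5.Egy
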