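import Mathlib

set_option autoImplicit false

namespace Crest.Agent.H5.Egy

open Finset

section
variable {m : ℕ} [NeZero m]

/-- exponential sum over an indexed family -/
noncomputable def FS {ι : Type*} (I : Finset ι) (S : ι → ZMod m) (ξ : ZMod m) : ℂ :=
  ∑ i ∈ I, ZMod.stdAddChar (ξ * S i)

lemma FS_prod {ι κ : Type*} (I : Finset ι) (J : Finset κ) (S : ι → ZMod m) (T : κ → ZMod m)
    (ξ : ZMod m) :
    FS (I ×ˢ J) (fun p => S p.1 + T p.2) ξ = FS I S ξ * FS J T ξ := by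
  unfold FS
  rw [sum_product, sum_mul_sum]
  refine sum_congr rfl fun i _ => sum_congr rfl fun j _ => ?_
  rw [mul_add, AddChar.map_add_eq_mul]

lemma FS_zero {ι : Type*} (I : Finset ι) (S : ι → ZMod m) : FS I S 0 = (I.card : ℂ) := by
  simp [FS]

lemma sum_FS_eq_zero {ι : Type*} (I : Finset ι) (S : ι → ZMod m) (h : ∀ i ∈ I, S i ≠ 0) :
    ∑ ξ, FS I S ξ = 0 := by
  unfold FS
  rw [sum_comm]
  refine sum_eq_zero fun i hi => ?_
  rw [AddChar.sum_mulShift _ (ZMod.isPrimitive_stdAddChar m), if_neg (h i hi)]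
  simp

lemma norm_std (x : ZMod m) : ‖ZMod.stdAddChar x‖ = 1 := by
  rw [ZMod.stdAddChar_apply]; simp

lemma norm_FS_le {ι : Type*} (I : Finset ι) (S : ι → ZMod m) (ξ : ZMod m) :
    ‖FS I S ξ‖ ≤ I.card := by
  unfold FS
  refine (norm_sum_le _ _).trans ?_
  simp only [norm_std]
  simp

lemma parseval (A : Finset (ZMod m)) :
    ∑ ξ, ‖FS A id ξ‖ ^ 2 = (m : ℝ) * A.card := by
  have h1 : ∀ ξ : ZMod m, ((‖FS A id ξ‖ ^ 2 : ℝ) : ℂ)
      = ∑ a ∈ A, ∑ a' ∈ A, ZMod.stdAddChar (ξ * (a - a')) := by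
    intro ξ
    rw [← Complex.normSq_eq_norm_sq, Complex.normSq_eq_conj_mul_self, mul_comm]
    unfold FS
    rw [map_sum, sum_mul_sum]
    refine sum_congr rfl fun a _ => sum_congr rfl fun a' _ => ?_
    rw [← AddChar.map_neg_eq_conj, ← AddChar.map_add_eq_mul]
    congr 1
    simp only [id]; ring
  have h2 : ((∑ ξ, ‖FS A id ξ‖ ^ 2 : ℝ) : ℂ) = (((m : ℝ) * A.card : ℝ) : ℂ) := by
    rw [Complex.ofReal_sum]
    simp_rw [h1]
    rw [sum_comm]
    have : ∀ a ∈ A, ∑ ξ : ZMod m, ∑ a' ∈ A, ZMod.stdAddChar (ξ * (a - a')) = (m : ℂ) := by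
      intro a ha
      rw [sum_comm]
      have : ∀ a' ∈ A, ∑ ξ : ZMod m, ZMod.stdAddChar (ξ * (a - a'))
          = if a = a' then (m : ℂ) else 0 := by
        intro a' _
        rw [AddChar.sum_mulShift _ (ZMod.isPrimitive_stdAddChar m), ZMod.card]
        simp [sub_eq_zero]
      rw [sum_congr rfl this, sum_ite_eq]
      simp [ha]
    rw [sum_congr rfl this]
    simp [mul_comm]
  exact_mod_cast h2

lemma FS_interval (ms : ℕ) (ξ : ZMod m) (hξ : ξ ≠ 0) (h : (ms : ZMod m) * ξ = 0) :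
    FS (range ms) (fun u : ℕ => ((u + 1 : ℕ) : ZMod m)) ξ = 0 := by
  unfold FS
  have h1 : ∀ u : ℕ, ZMod.stdAddChar (ξ * (u : ZMod m)) = (ZMod.stdAddChar ξ) ^ u := by
    intro u
    rw [← AddChar.map_nsmul_eq_pow, nsmul_eq_mul, mul_comm]
  simp_rw [h1, pow_succ]
  rw [← sum_mul]
  have h2 : ZMod.stdAddChar ξ ≠ 1 := by
    intro h3
    apply hξ
    rwa [← (ZMod.stdAddChar (N := m)).map_zero_eq_one, ZMod.injective_stdAddChar.eq_iff] at h3
  have h3 : (ZMod.stdAddChar ξ) ^ ms = 1 := by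
    rw [← h1, mul_comm, h]; simp
  rw [geom_sum_eq h2, h3]
  simp

lemma FS_dilate (A : Finset (ZMod m)) (G : Finset ℕ) (ξ : ZMod m)
    (hinj : Set.InjOn (fun g : ℕ => (g : ZMod m) * ξ) G) :
    ‖FS (G ×ˢ A) (fun p => (p.1 : ZMod m) * p.2) ξ‖ ^ 2 ≤ G.card * ((m : ℝ) * A.card) := by
  have h1 : FS (G ×ˢ A) (fun p => (p.1 : ZMod m) * p.2) ξ
      = ∑ g ∈ G, FS A id ((g : ZMod m) * ξ) := by
    unfold FS
    rw [sum_product]
    refine sum_congr rfl fun g _ => sum_congr rfl fun a _ => ?_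
    congr 1
    simp only [id]; ring
  rw [h1]
  calc ‖∑ g ∈ G, FS A id ((g : ZMod m) * ξ)‖ ^ 2
      ≤ (∑ g ∈ G, ‖FS A id ((g : ZMod m) * ξ)‖) ^ 2 :=
        pow_le_pow_left₀ (norm_nonneg _) (norm_sum_le _ _) 2
    _ ≤ G.card * ∑ g ∈ G, ‖FS A id ((g : ZMod m) * ξ)‖ ^ 2 := sq_sum_le_card_mul_sum_sq
    _ ≤ G.card * ((m : ℝ) * A.card) := by
        refine mul_le_mul_of_nonneg_left ?_ (by positivity)
        rw [← parseval A, ← sum_image (f := fun η => ‖FS A id η‖ ^ 2) hinj]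
        exact sum_le_sum_of_subset_of_nonneg (subset_univ _) (fun _ _ _ => by positivity)

/-- The additive lemma. -/
lemma additive (A : Finset (ZMod m)) (G : Finset ℕ) (z ms : ℕ) (hG : ∀ g ∈ G, g ≤ z)
    (hms : 0 < ms) (hdiv : ∀ d, 0 < d → d ≤ z → d ∣ m → d ∣ ms)
    (hbig : m ^ 2 < G.card * A.card ^ 2) :
    ∃ u < ms, ∃ a1 ∈ A, ∃ a2 ∈ A, ∃ g1 ∈ G, ∃ a3 ∈ A, ∃ g2 ∈ G, ∃ a4 ∈ A,
      ((u + 1 : ℕ) : ZMod m) + (a1 + (a2 + ((g1 : ZMod m) * a3 + (g2 : ZMod m) * a4))) = 0 := by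
  by_contra hcon
  push Not at hcon
  set U := FS (m := m) (range ms) (fun u : ℕ => ((u + 1 : ℕ) : ZMod m)) with hU
  set F := FS A id with hF
  set T := FS (G ×ˢ A) (fun p => (p.1 : ZMod m) * p.2) with hT
  have hsum : ∑ ξ, U ξ * (F ξ * (F ξ * (T ξ * T ξ))) = 0 := by
    have := sum_FS_eq_zero (range ms ×ˢ (A ×ˢ (A ×ˢ ((G ×ˢ A) ×ˢ (G ×ˢ A)))))
      (fun p => ((p.1 + 1 : ℕ) : ZMod m) + (id p.2.1 + (id p.2.2.1 +
        ((p.2.2.2.1.1 : ZMod m) * p.2.2.2.1.2 + (p.2.2.2.2.1 : ZMod m) * p.2.2.2.2.2))))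
      (by
        rintro ⟨u, a1, a2, ⟨g1, a3⟩, ⟨g2, a4⟩⟩ hp
        simp only [mem_product, mem_range] at hp
        exact hcon u hp.1 a1 hp.2.1 a2 hp.2.2.1 g1 hp.2.2.2.1.1 a3 hp.2.2.2.1.2 g2
          hp.2.2.2.2.1 a4 hp.2.2.2.2.2)
    rw [← this]
    refine sum_congr rfl fun ξ _ => ?_
    rw [hU, hF, hT, ← FS_prod, ← FS_prod, ← FS_prod, ← FS_prod]
  rw [← add_sum_erase _ _ (mem_univ (0 : ZMod m))] at hsum
  have hmain : U 0 * (F 0 * (F 0 * (T 0 * T 0)))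
      = (((ms : ℝ) * (A.card * (A.card * ((G.card * A.card) * (G.card * A.card)))) : ℝ) : ℂ) := by
    rw [hU, hF, hT]
    simp only [FS_zero, card_range, card_product]
    push_cast; ring
  have hterm : ∀ ξ ∈ univ.erase (0 : ZMod m), ‖U ξ * (F ξ * (F ξ * (T ξ * T ξ)))‖
      ≤ (ms : ℝ) * (G.card * ((m : ℝ) * A.card)) * ‖F ξ‖ ^ 2 := by
    intro ξ hξ
    have hξ0 : ξ ≠ 0 := ne_of_mem_erase hξ
    by_cases h : (ms : ZMod m) * ξ = 0
    · rw [hU, FS_interval ms ξ hξ0 h]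
      simp only [zero_mul, norm_zero]
      positivity
    · have hinj : Set.InjOn (fun g : ℕ => (g : ZMod m) * ξ) G := by
        have key : ∀ g g' : ℕ, g' ≤ z → g < g' → (g : ZMod m) * ξ = (g' : ZMod m) * ξ → False := by
          intro g g' hg' hlt heq
          apply h
          have h1 : (g' - g) • ξ = 0 := by
            rw [nsmul_eq_mul, Nat.cast_sub hlt.le, sub_mul, heq, sub_self]
          have h2 : addOrderOf ξ ∣ g' - g := addOrderOf_dvd_of_nsmul_eq_zero h1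
          have h3 : addOrderOf ξ ∣ m := by
            have := addOrderOf_dvd_card (x := ξ)
            rwa [ZMod.card] at this
          have h4 : addOrderOf ξ ≤ g' - g := Nat.le_of_dvd (by omega) h2
          have h5 : addOrderOf ξ ∣ ms := hdiv _ (addOrderOf_pos ξ) (by omega) h3
          have h6 := addOrderOf_dvd_iff_nsmul_eq_zero.1 h5
          rwa [nsmul_eq_mul] at h6
        intro g hg g' hg' heq
        rcases lt_trichotomy g g' with hlt | heq' | hlt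
        · exact (key g g' (hG g' hg') hlt heq).elim
        · exact heq'
        · exact (key g' g (hG g hg) hlt heq.symm).elim
      have h1 := FS_dilate A G ξ hinj
      have h2 : ‖U ξ‖ ≤ ms := by
        have := norm_FS_le (m := m) (range ms) (fun u : ℕ => ((u + 1 : ℕ) : ZMod m)) ξ
        rwa [card_range] at this
      rw [← hT] at h1
      calc ‖U ξ * (F ξ * (F ξ * (T ξ * T ξ)))‖ = ‖U ξ‖ * ‖T ξ‖ ^ 2 * ‖F ξ‖ ^ 2 := by
            simp only [norm_mul]; ring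
        _ ≤ (ms : ℝ) * (G.card * ((m : ℝ) * A.card)) * ‖F ξ‖ ^ 2 := by
            gcongr
  have hrest : ‖∑ ξ ∈ univ.erase (0 : ZMod m), U ξ * (F ξ * (F ξ * (T ξ * T ξ)))‖
      ≤ (ms : ℝ) * (G.card * ((m : ℝ) * A.card)) * ((m : ℝ) * A.card) := by
    refine (norm_sum_le _ _).trans ((sum_le_sum hterm).trans ?_)
    rw [← mul_sum]
    refine mul_le_mul_of_nonneg_left ?_ (by positivity)
    rw [← parseval A]
    exact sum_le_sum_of_subset_of_nonneg (subset_univ _) (fun _ _ _ => by positivity)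
  rw [hmain] at hsum
  have h3 := eq_neg_of_add_eq_zero_left hsum
  have h4 := congrArg norm h3
  rw [norm_neg, Complex.norm_real, Real.norm_of_nonneg (by positivity)] at h4
  rw [← h4] at hrest
  have hbig' : (m : ℝ) ^ 2 < G.card * (A.card : ℝ) ^ 2 := by exact_mod_cast hbig
  have hpos : (0 : ℝ) < G.card * (A.card : ℝ) ^ 2 := lt_of_le_of_lt (by positivity) hbig'
  have hms' : (0 : ℝ) < ms := by exact_mod_cast hms
  have h5 : (ms : ℝ) * (G.card * (A.card : ℝ) ^ 2) * (G.card * (A.card : ℝ) ^ 2)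
      ≤ (ms : ℝ) * (G.card * (A.card : ℝ) ^ 2) * (m : ℝ) ^ 2 := by
    calc _ = (ms : ℝ) * (A.card * (A.card * ((G.card * A.card) * (G.card * A.card)))) := by ring
      _ ≤ _ := hrest
      _ = _ := by ring
  have h6 := le_of_mul_le_mul_left h5 (mul_pos hms' hpos)
  linarith

end

end Crest.Agent.H5.Egy
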