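import Crest.Agent.H5.Egy.Basic
import Crest.Agent.H5.Egy.Fourier

set_option autoImplicit false

namespace Crest.Agent.H5.Egy

open Finset ArithmeticFunction

lemma sq_card_le {α β : Type*} [DecidableEq β] (A : Finset α) (φ : α → β) :
    A.card ^ 2 ≤ (A.image φ).card * ((A ×ˢ A).filter (fun p => φ p.1 = φ p.2)).card := by
  have h1 : A.card = ∑ r ∈ A.image φ, (A.filter (fun a => φ a = r)).card :=
    card_eq_sum_card_fiberwise (fun a ha => mem_image_of_mem φ ha)
  have h2 : ((A ×ˢ A).filter (fun p => φ p.1 = φ p.2)).card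
      = ∑ r ∈ A.image φ, (A.filter (fun a => φ a = r)).card ^ 2 := by
    rw [card_eq_sum_card_fiberwise (f := fun p : α × α => φ p.1) (t := A.image φ)]
    · refine sum_congr rfl fun r _ => ?_
      rw [pow_two, ← card_product]
      congr 1
      ext ⟨a, b⟩
      simp only [mem_filter, mem_product]
      constructor
      · rintro ⟨⟨⟨h1, h2⟩, h3⟩, h4⟩
        exact ⟨⟨h1, h4⟩, h2, h3 ▸ h4⟩
      · rintro ⟨⟨h1, h2⟩, h3, h4⟩
        exact ⟨⟨⟨h1, h3⟩, h2.trans h4.symm⟩, h2⟩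
    · intro p hp
      simp only [coe_filter, mem_product, Set.mem_ofPred_eq] at hp
      exact mem_image_of_mem φ hp.1.1
  rw [h2]
  conv_lhs => rw [h1]
  exact sq_sum_le_card_mul_sum_sq

/-- number of pairs congruent mod `m` -/
def pairs (A : Finset ℕ) (m : ℕ) : ℕ := ((A ×ˢ A).filter (fun p => p.1 % m = p.2 % m)).card

lemma sum_pairs_le (A 𝓜 : Finset ℕ) (N K : ℕ) (hA : ∀ x ∈ A, x ≤ N)
    (hK : ∀ Ω, 0 < Ω → Ω ≤ N → (𝓜.filter (fun m => m ∣ Ω)).card ≤ K) :
    ∑ m ∈ 𝓜, pairs A m ≤ 𝓜.card * A.card + K * A.card ^ 2 := by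
  have h1 : ∑ m ∈ 𝓜, pairs A m
      = ∑ p ∈ A ×ˢ A, (𝓜.filter (fun m => p.1 % m = p.2 % m)).card := by
    unfold pairs
    simp_rw [card_filter]
    rw [sum_comm]
  have h2 : ∀ p ∈ A ×ˢ A, (𝓜.filter (fun m => p.1 % m = p.2 % m)).card
      ≤ (if p.1 = p.2 then 𝓜.card else 0) + K := by
    rintro ⟨x, y⟩ hp
    simp only [mem_product] at hp
    have key : ∀ x y : ℕ, y ≤ N → x < y → (𝓜.filter (fun m => x % m = y % m)).card ≤ K := by
      intro x y hy hlt
      refine le_trans (card_le_card ?_) (hK (y - x) (by omega) (by omega))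
      intro m hm
      rw [mem_filter] at hm ⊢
      exact ⟨hm.1, (Nat.modEq_iff_dvd' hlt.le).1 hm.2⟩
    rcases lt_trichotomy x y with hlt | heq | hlt
    · exact (key x y (hA y hp.2) hlt).trans (Nat.le_add_left _ _)
    · simp only [heq, if_true]
      exact (card_filter_le _ _).trans (Nat.le_add_right _ _)
    · have := key y x (hA x hp.1) hlt
      simp only [eq_comm (a := y % _)] at this
      exact this.trans (Nat.le_add_left _ _)
  rw [h1]
  refine (sum_le_sum h2).trans ?_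
  rw [sum_add_distrib, sum_const, card_product, smul_eq_mul, sum_product]
  have : ∑ x ∈ A, ∑ y ∈ A, (if (x, y).1 = (x, y).2 then 𝓜.card else 0) = 𝓜.card * A.card := by
    rw [sum_congr rfl (g := fun _ => 𝓜.card)]
    · simp [mul_comm]
    · intro x hx
      simp [hx]
  rw [this]
  apply le_of_eq; ring

lemma sum_divisors_eq (f : ℕ → ℝ) (Y : ℕ) :
    ∑ m ∈ Ioc 0 Y, ∑ d ∈ m.divisors, f d = ∑ d ∈ Ioc 0 Y, f d * ((Y / d : ℕ) : ℝ) := by
  have h1 : ∀ m ∈ Ioc 0 Y, ∑ d ∈ m.divisors, f d = ∑ d ∈ Ioc 0 Y, if d ∣ m then f d else 0 := by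
    intro m hm
    rw [← sum_filter]
    refine sum_congr ?_ fun _ _ => rfl
    ext d
    simp only [Nat.mem_divisors, mem_filter, mem_Ioc] at hm ⊢
    constructor
    · rintro ⟨h1, h2⟩
      exact ⟨⟨Nat.pos_of_dvd_of_pos h1 hm.1, (Nat.le_of_dvd hm.1 h1).trans hm.2⟩, h1⟩
    · rintro ⟨_, h2⟩
      exact ⟨h2, hm.1.ne'⟩
  rw [sum_congr rfl h1, sum_comm]
  refine sum_congr rfl fun d _ => ?_
  rw [← sum_filter, sum_const, Nat.Ioc_filter_dvd_card_eq_div, nsmul_eq_mul, mul_comm]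

lemma sum_divisors_le (f : ℕ → ℝ) (hf : ∀ d, 0 ≤ f d) (Y : ℕ) :
    ∑ m ∈ Ioc 0 Y, ∑ d ∈ m.divisors, f d ≤ Y * ∑ d ∈ Ioc 0 Y, f d / d := by
  rw [sum_divisors_eq, mul_sum]
  refine sum_le_sum fun d _ => ?_
  have : ((Y / d : ℕ) : ℝ) ≤ (Y : ℝ) / d := Nat.cast_div_le
  calc f d * ((Y / d : ℕ) : ℝ) ≤ f d * ((Y : ℝ) / d) := mul_le_mul_of_nonneg_left this (hf d)
    _ = Y * (f d / d) := by ring

lemma sum_tau_le (Y : ℕ) :
    ∑ m ∈ Ioc 0 Y, (m.divisors.card : ℝ) ≤ Y * (1 + Real.log Y) := by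
  have h1 := sum_divisors_le (fun _ => 1) (fun _ => zero_le_one) Y
  simp only [sum_const, nsmul_eq_mul, mul_one] at h1
  refine h1.trans (mul_le_mul_of_nonneg_left ?_ (by positivity))
  have h2 := harmonic_le_one_add_log Y
  rw [harmonic_eq_sum_Icc] at h2
  push_cast at h2
  refine le_trans (le_of_eq ?_) h2
  rw [← Icc_add_one_left_eq_Ioc]
  simp

lemma mertens (z : ℕ) : ∑ d ∈ Ioc 0 z, Λ d / d ≤ 2 * Real.log z := by
  rcases Nat.eq_zero_or_pos z with rfl | hz
  · simp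
  have hz' : (0 : ℝ) < z := by exact_mod_cast hz
  have h1 := sum_divisors_eq (fun d => Λ d) z
  simp only [vonMangoldt_sum] at h1
  have h2 : ∑ m ∈ Ioc 0 z, Real.log m ≤ z * Real.log z := by
    have : ∀ m ∈ Ioc 0 z, Real.log m ≤ Real.log z := by
      intro m hm
      rw [mem_Ioc] at hm
      exact Real.log_le_log (by exact_mod_cast hm.1) (by exact_mod_cast hm.2)
    refine (sum_le_sum this).trans ?_
    simp
  have h3 : (z : ℝ) * ∑ d ∈ Ioc 0 z, Λ d / d ≤ 2 * ∑ d ∈ Ioc 0 z, Λ d * ((z / d : ℕ) : ℝ) := by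
    rw [mul_sum, mul_sum]
    refine sum_le_sum fun d hd => ?_
    rw [mem_Ioc] at hd
    have hd' : (0 : ℝ) < d := by exact_mod_cast hd.1
    have h4 : z ≤ 2 * (z / d) * d := by
      have h5 : 1 ≤ z / d := Nat.div_pos hd.2 hd.1
      have h6 : z < d * (z / d + 1) := Nat.lt_mul_div_succ z hd.1
      nlinarith
    have h5 : (z : ℝ) ≤ 2 * ((z / d : ℕ) : ℝ) * d := by exact_mod_cast h4
    have h6 : (z : ℝ) / d ≤ 2 * ((z / d : ℕ) : ℝ) := by rwa [div_le_iff₀ hd']
    calc (z : ℝ) * (Λ d / d) = Λ d * ((z : ℝ) / d) := by ring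
      _ ≤ Λ d * (2 * ((z / d : ℕ) : ℝ)) := mul_le_mul_of_nonneg_left h6 vonMangoldt_nonneg
      _ = _ := by ring
  have h4 : (z : ℝ) * ∑ d ∈ Ioc 0 z, Λ d / d ≤ z * (2 * Real.log z) := by linarith
  exact le_of_mul_le_mul_left h4 hz'

lemma log_gcd_le (m z : ℕ) (hm : 0 < m) (hz : 0 < z) :
    Real.log (Nat.gcd m (Nat.lcmUpto z)) ≤ ∑ d ∈ m.divisors, if d ≤ z then Λ d else 0 := by
  rw [← vonMangoldt_sum]
  have hsub : (Nat.gcd m (Nat.lcmUpto z)).divisors ⊆ m.divisors :=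
    Nat.divisors_subset_of_dvd hm.ne' (Nat.gcd_dvd_left _ _)
  refine le_trans (le_of_eq ?_) (sum_le_sum_of_subset_of_nonneg hsub (fun d _ _ => ?_))
  · refine sum_congr rfl fun d hd => ?_
    split_ifs with h
    · rfl
    · rw [vonMangoldt_eq_zero_iff]
      intro hpp
      apply h
      obtain ⟨p, k, hp, hk, rfl⟩ := (isPrimePow_nat_iff d).1 hpp
      have h1 : p ^ k ∣ Nat.lcmUpto z := (Nat.dvd_of_mem_divisors hd).trans (Nat.gcd_dvd_right _ _)
      rw [hp.pow_dvd_iff_le_factorization (Nat.lcmUpto_ne_zero z), Nat.factorization_lcmUpto z hp]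
        at h1
      exact Nat.pow_le_of_le_log hz.ne' h1
  · split_ifs
    · exact vonMangoldt_nonneg
    · exact le_rfl

lemma sum_log_gcd_le (Y z : ℕ) (hz : 0 < z) :
    ∑ m ∈ Ioc 0 Y, Real.log (Nat.gcd m (Nat.lcmUpto z)) ≤ Y * (2 * Real.log z) := by
  have hnn : ∀ d : ℕ, (0 : ℝ) ≤ if d ≤ z then Λ d else 0 := by
    intro d
    split_ifs
    · exact vonMangoldt_nonneg
    · exact le_rfl
  refine (sum_le_sum fun m hm => log_gcd_le m z (mem_Ioc.1 hm).1 hz).trans ?_
  refine (sum_divisors_le _ hnn Y).trans (mul_le_mul_of_nonneg_left ?_ (by positivity))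
  refine le_trans ?_ (mertens z)
  have : ∑ d ∈ Ioc 0 Y, (if d ≤ z then Λ d else 0) / (d : ℝ)
      = ∑ d ∈ (Ioc 0 Y).filter (fun d => d ≤ z), Λ d / (d : ℝ) := by
    rw [sum_filter]
    refine sum_congr rfl fun d _ => ?_
    split_ifs <;> simp
  rw [this]
  refine sum_le_sum_of_subset_of_nonneg ?_ (fun d _ _ => div_nonneg vonMangoldt_nonneg (by positivity))
  intro d hd
  simp only [mem_filter, mem_Ioc] at hd ⊢
  exact ⟨hd.1.1, hd.2⟩

lemma markov (s : Finset ℕ) (f : ℕ → ℝ) (hf : ∀ x ∈ s, 0 ≤ f x) (c : ℝ) (P : ℕ → Prop)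
    [DecidablePred P] (hP : ∀ x ∈ s, P x → c ≤ f x) :
    ((s.filter P).card : ℝ) * c ≤ ∑ x ∈ s, f x := by
  have h1 : ((s.filter P).card : ℝ) * c ≤ ∑ x ∈ s.filter P, f x := by
    rw [← nsmul_eq_mul]
    exact card_nsmul_le_sum _ _ _ (fun x hx => hP x (mem_filter.1 hx).1 (mem_filter.1 hx).2)
  exact h1.trans (sum_le_sum_of_subset_of_nonneg (filter_subset _ _) (fun x hx _ => hf x hx))

lemma two_pow_omega_le (m : ℕ) (hm : 0 < m) : 2 ^ m.primeFactors.card ≤ m.divisors.card := by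
  rw [Nat.card_divisors hm.ne']
  refine pow_card_le_prod _ _ _ (fun p hp => ?_)
  have : 0 < m.factorization p := by
    rw [← Nat.support_factorization, Finsupp.mem_support_iff] at hp
    omega
  omega

lemma card_pp_le (Ω e : ℕ) (hΩ : 0 < Ω) (he : Ω ≤ 2 ^ e) :
    (Ω.divisors.filter IsPrimePow).card ≤ e := by
  have h1 := markov Ω.divisors (fun d => Λ d) (fun _ _ => vonMangoldt_nonneg) (Real.log 2)
    IsPrimePow (by
      intro d _ hd
      rw [vonMangoldt_apply, if_pos hd]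
      exact Real.log_le_log two_pos (by exact_mod_cast (Nat.minFac_prime hd.ne_one).two_le))
  rw [vonMangoldt_sum] at h1
  have h2 : Real.log Ω ≤ e * Real.log 2 := by
    rw [← Real.log_pow]
    exact Real.log_le_log (by exact_mod_cast hΩ) (by exact_mod_cast he)
  have h3 := le_of_mul_le_mul_right (h1.trans h2) (Real.log_pos one_lt_two)
  exact_mod_cast h3

lemma card_small_subsets (P : Finset ℕ) (t : ℕ) :
    (P.powerset.filter (fun S => S.card ≤ t)).card ≤ (P.card + 1) ^ t := by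
  have h1 : P.powerset.filter (fun S => S.card ≤ t)
      ⊆ (range (t + 1)).biUnion (fun i => powersetCard i P) := by
    intro S hS
    simp only [mem_filter, mem_powerset, mem_biUnion, mem_range, mem_powersetCard] at hS ⊢
    exact ⟨S.card, by omega, hS.1, rfl⟩
  refine (card_le_card h1).trans (card_biUnion_le.trans ?_)
  rw [add_pow]
  refine sum_le_sum fun i hi => ?_
  rw [card_powersetCard, one_pow, mul_one]
  have h2 : 1 ≤ t.choose i := Nat.choose_pos (by rw [mem_range] at hi; omega)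
  calc P.card.choose i ≤ P.card ^ i := Nat.choose_le_pow _ _
    _ ≤ P.card ^ i * t.choose i := Nat.le_mul_of_pos_right _ h2

lemma card_dvd_le (𝓜 : Finset ℕ) (t Ω e : ℕ) (hΩ : 0 < Ω) (he : Ω ≤ 2 ^ e)
    (h𝓜 : ∀ m ∈ 𝓜, m.primeFactors.card ≤ t) :
    (𝓜.filter (fun m => m ∣ Ω)).card ≤ (e + 1) ^ t := by
  set P := Ω.divisors.filter IsPrimePow with hP
  have h1 : 𝓜.filter (fun m => m ∣ Ω)
      ⊆ (P.powerset.filter (fun S => S.card ≤ t)).image (fun S => ∏ d ∈ S, d) := by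
    intro m hm
    rw [mem_filter] at hm
    have hm0 : m ≠ 0 := (Nat.pos_of_dvd_of_pos hm.2 hΩ).ne'
    have hpos : ∀ p ∈ m.primeFactors, 0 < m.factorization p := by
      intro p hp
      rw [← Nat.support_factorization, Finsupp.mem_support_iff] at hp
      omega
    rw [mem_image]
    refine ⟨m.primeFactors.image (fun p => p ^ m.factorization p), ?_, ?_⟩
    · rw [mem_filter, mem_powerset]
      refine ⟨?_, card_image_le.trans (h𝓜 m hm.1)⟩
      intro d hd
      obtain ⟨p, hp, rfl⟩ := mem_image.1 hd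
      rw [hP, mem_filter, Nat.mem_divisors]
      refine ⟨⟨(Nat.ordProj_dvd m p).trans hm.2, hΩ.ne'⟩, ?_⟩
      exact (isPrimePow_nat_iff _).2 ⟨p, _, Nat.prime_of_mem_primeFactors hp, hpos p hp, rfl⟩
    · rw [prod_image]
      · conv_rhs => rw [← Nat.prod_factorization_pow_eq_self hm0]
        rfl
      · intro p hp q hq hpq
        have hp' := Nat.prime_of_mem_primeFactors hp
        have hq' := Nat.prime_of_mem_primeFactors hq
        have : p ∣ q ^ m.factorization q := by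
          simp only at hpq
          rw [← hpq]
          exact dvd_pow_self p (hpos p hp).ne'
        exact (Nat.prime_dvd_prime_iff_eq hp' hq').1 (hp'.dvd_of_dvd_pow this)
  refine (card_le_card h1).trans (card_image_le.trans ((card_small_subsets P t).trans ?_))
  exact Nat.pow_le_pow_left (Nat.add_le_add_right (card_pp_le Ω e hΩ he) 1) t

open Classical in
/-- Most moduli are good. -/
theorem good_count (W M s tU e Y K0 t z : ℕ) (F G : Finset ℕ)
    (hF : ∀ x ∈ F, SD W s x ∧ x ≤ 2 ^ e) (hFne : F.Nonempty)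
    (hG : ∀ g ∈ G, g ≤ z ∧ g * W ∣ M) (hW : W ∣ M) (hz : 2 ≤ z)
    (hU : ∀ u ≤ z ^ 200, SD M tU u) (hY : Y ≤ K0 * F.card)
    (ht : 100 * (1 + Real.log Y) ≤ 2 ^ t)
    (hK : (100 * (K0 + (e + 1) ^ t)) ^ 2 < G.card) :
    100 * ((Ioc 0 Y).filter (fun m => ¬ Good M (tU + 4 * s) m)).card ≤ 3 * Y := by
  set K1 := (e + 1) ^ t with hK1
  have hK1pos : 0 < K1 := by positivity
  set 𝓜 := (Ioc 0 Y).filter (fun m => m.primeFactors.card ≤ t) with h𝓜
  set B1 := (Ioc 0 Y).filter (fun m => ¬ m.primeFactors.card ≤ t) with hB1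
  set B2 := (Ioc 0 Y).filter (fun m => ¬ Nat.gcd m (Nat.lcmUpto z) ≤ z ^ 200) with hB2
  set B3 := 𝓜.filter (fun m => ¬ pairs F m * Y ≤ 100 * (K0 + K1) * F.card ^ 2) with hB3
  have hFpos : 0 < F.card := hFne.card_pos
  have hlogY : 0 ≤ Real.log Y := Real.log_natCast_nonneg Y
  have c1 : 100 * B1.card ≤ Y := by
    have h1 := markov (Ioc 0 Y) (fun m => (m.divisors.card : ℝ)) (fun _ _ => by positivity)
      (100 * (1 + Real.log Y)) (fun m => ¬ m.primeFactors.card ≤ t) (by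
        intro m hm hm'
        have h2 := two_pow_omega_le m (mem_Ioc.1 hm).1
        have h3 : 2 ^ t ≤ 2 ^ m.primeFactors.card := Nat.pow_le_pow_right two_pos (by omega)
        have h4 : ((2 : ℝ)) ^ t ≤ m.divisors.card := by exact_mod_cast h3.trans h2
        exact ht.trans h4)
    have h2 := h1.trans (sum_tau_le Y)
    rw [← hB1] at h2
    have h3 : (100 * B1.card : ℝ) * (1 + Real.log Y) ≤ Y * (1 + Real.log Y) := by linarith
    have h4 := le_of_mul_le_mul_right h3 (by positivity)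
    exact_mod_cast h4
  have c2 : 100 * B2.card ≤ Y := by
    have h1 := markov (Ioc 0 Y) (fun m => Real.log (Nat.gcd m (Nat.lcmUpto z)))
      (fun _ _ => Real.log_natCast_nonneg _)
      (200 * Real.log z) (fun m => ¬ Nat.gcd m (Nat.lcmUpto z) ≤ z ^ 200) (by
        intro m _ hm'
        have h2 : Real.log ((z : ℝ) ^ 200) ≤ Real.log (Nat.gcd m (Nat.lcmUpto z)) :=
          Real.log_le_log (by positivity) (by exact_mod_cast (not_le.1 hm').le)
        rw [Real.log_pow] at h2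
        exact_mod_cast h2)
    have h2 := h1.trans (sum_log_gcd_le Y z (by omega))
    rw [← hB2] at h2
    have hlz : 0 < Real.log z := Real.log_pos (by exact_mod_cast (by omega : 1 < z))
    have h3 : (100 * B2.card : ℝ) * (2 * Real.log z) ≤ Y * (2 * Real.log z) := by linarith
    have h4 := le_of_mul_le_mul_right h3 (by positivity)
    exact_mod_cast h4
  have c3 : 100 * B3.card ≤ Y := by
    have h1 := sum_pairs_le F 𝓜 (2 ^ e) K1 (fun x hx => (hF x hx).2)
      (fun Ω h1 h2 => card_dvd_le 𝓜 t Ω e h1 h2 (fun m hm => (mem_filter.1 hm).2))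
    have h2 : 𝓜.card ≤ Y := (card_filter_le _ _).trans (by simp)
    have h3 : ∑ m ∈ 𝓜, pairs F m ≤ (K0 + K1) * F.card ^ 2 := by
      have : 𝓜.card * F.card ≤ K0 * F.card * F.card := Nat.mul_le_mul_right _ (h2.trans hY)
      nlinarith
    have h4 : B3.card * (100 * (K0 + K1) * F.card ^ 2) ≤ ∑ m ∈ B3, pairs F m * Y := by
      rw [← smul_eq_mul]
      exact card_nsmul_le_sum _ _ _ (fun m hm => (not_le.1 (mem_filter.1 hm).2).le)
    have h5 : ∑ m ∈ B3, pairs F m * Y ≤ (K0 + K1) * F.card ^ 2 * Y := by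
      rw [← sum_mul]
      exact Nat.mul_le_mul_right _ ((sum_le_sum_of_subset (filter_subset _ _)).trans h3)
    have h6 : 100 * B3.card * ((K0 + K1) * F.card ^ 2) ≤ Y * ((K0 + K1) * F.card ^ 2) := by
      calc _ = B3.card * (100 * (K0 + K1) * F.card ^ 2) := by ring
        _ ≤ _ := h4.trans h5
        _ = _ := by ring
    exact Nat.le_of_mul_le_mul_right h6 (by positivity)
  have hsub : (Ioc 0 Y).filter (fun m => ¬ Good M (tU + 4 * s) m) ⊆ B1 ∪ B2 ∪ B3 := by
    intro m hm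
    rw [mem_filter] at hm
    by_contra hcon
    apply hm.2
    simp only [mem_union, not_or] at hcon
    obtain ⟨⟨k1, k2⟩, k3⟩ := hcon
    have k1' : m.primeFactors.card ≤ t := by
      by_contra h; exact k1 (mem_filter.2 ⟨hm.1, h⟩)
    have k2' : Nat.gcd m (Nat.lcmUpto z) ≤ z ^ 200 := by
      by_contra h; exact k2 (mem_filter.2 ⟨hm.1, h⟩)
    have k3' : pairs F m * Y ≤ 100 * (K0 + K1) * F.card ^ 2 := by
      by_contra h; exact k3 (mem_filter.2 ⟨mem_filter.2 ⟨hm.1, k1'⟩, h⟩)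
    obtain ⟨hm0, hmY⟩ := mem_Ioc.1 hm.1
    have : NeZero m := ⟨hm0.ne'⟩
    set A : Finset (ZMod m) := F.image (fun x : ℕ => (x : ZMod m)) with hA
    have hcs : F.card ^ 2 ≤ A.card * pairs F m := by
      have := sq_card_le F (fun x : ℕ => (x : ZMod m))
      simp only [ZMod.natCast_eq_natCast_iff'] at this
      exact this
    have hApos : 0 < A.card := (hFne.image _).card_pos
    have hYA : Y ≤ 100 * (K0 + K1) * A.card := by
      have : Y * F.card ^ 2 ≤ 100 * (K0 + K1) * A.card * F.card ^ 2 := by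
        calc Y * F.card ^ 2 ≤ Y * (A.card * pairs F m) := Nat.mul_le_mul_left _ hcs
          _ = A.card * (pairs F m * Y) := by ring
          _ ≤ A.card * (100 * (K0 + K1) * F.card ^ 2) := Nat.mul_le_mul_left _ k3'
          _ = _ := by ring
      exact Nat.le_of_mul_le_mul_right this (by positivity)
    have hbig : m ^ 2 < G.card * A.card ^ 2 := by
      calc m ^ 2 ≤ (100 * (K0 + K1) * A.card) ^ 2 := Nat.pow_le_pow_left (hmY.trans hYA) 2
        _ = (100 * (K0 + K1)) ^ 2 * A.card ^ 2 := by ring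
        _ < G.card * A.card ^ 2 := Nat.mul_lt_mul_of_pos_right hK (by positivity)
    obtain ⟨u, hu, a1, ha1, a2, ha2, g1, hg1, a3, ha3, g2, hg2, a4, ha4, hsum⟩ :=
      additive A G z (Nat.gcd m (Nat.lcmUpto z)) (fun g hg => (hG g hg).1)
        (Nat.gcd_pos_of_pos_left _ hm0)
        (fun d hd hdz hdm => Nat.dvd_gcd hdm (Finset.dvd_lcm (f := id) (mem_Icc.2 ⟨hd, hdz⟩)))
        hbig
    obtain ⟨x1, hx1, rfl⟩ := mem_image.1 ha1
    obtain ⟨x2, hx2, rfl⟩ := mem_image.1 ha2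
    obtain ⟨x3, hx3, rfl⟩ := mem_image.1 ha3
    obtain ⟨x4, hx4, rfl⟩ := mem_image.1 ha4
    have hdvd : m ∣ (u + 1) + (x1 + (x2 + (g1 * x3 + g2 * x4))) := by
      rw [← ZMod.natCast_eq_zero_iff, ← hsum]
      push_cast; ring
    obtain ⟨c, hc⟩ := hdvd
    refine ⟨c, ?_, ?_⟩
    · rcases Nat.eq_zero_or_pos c with rfl | h
      · omega
      · exact h
    · rw [← hc]
      have s0 := hU (u + 1) (by omega)
      have s1 := (hF x1 hx1).1.mono hW le_rfl
      have s2 := (hF x2 hx2).1.mono hW le_rfl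
      have s3 := ((hF x3 hx3).1.mul g1).mono (hG g1 hg1).2 le_rfl
      have s4 := ((hF x4 hx4).1.mul g2).mono (hG g2 hg2).2 le_rfl
      exact (s0.add (s1.add (s2.add (s3.add s4)))).mono dvd_rfl (by omega)
  have h1 := (card_le_card hsub).trans ((card_union_le _ _).trans
    (Nat.add_le_add_right (card_union_le _ _) _))
  omega

end Crest.Agent.H5.Egy
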