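import Crest.Agent.H5.Egy.Split

set_option autoImplicit false

namespace Crest.Agent.H5.Egy

open Finset

lemma pi_bound (k : ℕ) (hk : 3 ≤ k) : 2 ^ k ≤ 2 * k * (Nat.primesLE (2 ^ k)).card := by
  have h1 := Chebyshev.pi_ge (2 ^ k)
  rw [← Nat.primesLE_card_eq_primeCounting] at h1
  have hl : 0 < Real.log 2 := Real.log_pos one_lt_two
  have hk' : (0 : ℝ) < k := by exact_mod_cast (by omega : 0 < k)
  have h2 : Real.log ((2 ^ k : ℕ) : ℝ) = k * Real.log 2 := by push_cast; rw [Real.log_pow]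
  have h3 : Real.log (((2 ^ k : ℕ) : ℝ) + 1) ≤ (k + 1) * Real.log 2 := by
    have : Real.log ((2 : ℝ) ^ (k + 1)) = (k + 1) * Real.log 2 := by
      rw [Real.log_pow]; push_cast; ring
    rw [← this]
    refine Real.log_le_log (by positivity) ?_
    have : (1 : ℝ) ≤ 2 ^ k := one_le_pow₀ one_le_two
    push_cast
    rw [pow_succ]; linarith
  have h4 : 2 * (k + 1) ≤ 2 ^ k := by
    clear h1 h2 h3 hk'
    induction k, hk using Nat.le_induction with
    | base => norm_num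
    | succ k _ ih => rw [pow_succ]; omega
  have h4' : (2 * (k + 1) : ℝ) ≤ ((2 ^ k : ℕ) : ℝ) := by exact_mod_cast h4
  rw [h2, div_le_iff₀ (by positivity)] at h1
  have h5 : ((2 ^ k : ℕ) : ℝ) * Real.log 2
      ≤ (2 * k * ((Nat.primesLE (2 ^ k)).card : ℝ)) * Real.log 2 := by
    have := mul_le_mul_of_nonneg_right h4' hl.le
    linarith
  have h6 := le_of_mul_le_mul_right h5 hl
  exact_mod_cast h6

lemma exists_ell (D : Finset ℕ) (e k : ℕ) (hk : 3 ≤ k) (hD : D.card = 2 ^ k)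
    (hle : ∀ x ∈ D, x ≤ 2 ^ e) :
    ∃ l : ℕ, ∃ D' ⊆ D, 2 ≤ l ∧ l ≤ 2 ^ k ∧ Set.InjOn (fun x => x % l) D' ∧ D'.card ≤ l ∧
      2 ^ k ≤ (1 + 2 * k * e) * D'.card := by
  set Q := Nat.primesLE (2 ^ k) with hQ
  have hpi : 2 ^ k ≤ 2 * k * Q.card := pi_bound k hk
  have hQpos : 0 < Q.card := by
    rcases Nat.eq_zero_or_pos Q.card with h | h
    · rw [h] at hpi
      have : 0 < 2 ^ k := by positivity
      omega
    · exact h
  have h1 := sum_pairs_le D Q (2 ^ e) e hle (by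
    intro Ω h1 h2
    refine le_trans (card_le_card ?_) (card_pp_le Ω e h1 h2)
    intro p hp
    rw [mem_filter] at hp ⊢
    exact ⟨Nat.mem_divisors.2 ⟨hp.2, h1.ne'⟩, (Nat.prime_of_mem_primesLE hp.1).isPrimePow⟩)
  have h2 : ∑ m ∈ Q, pairs D m ≤ ∑ _m ∈ Q, (1 + 2 * k * e) * D.card := by
    rw [sum_const, smul_eq_mul]
    refine h1.trans ?_
    have : e * D.card ^ 2 ≤ e * (2 * k * Q.card) * D.card := by
      rw [pow_two, ← mul_assoc]
      exact Nat.mul_le_mul_right _ (Nat.mul_le_mul_left _ (hD ▸ hpi))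
    calc _ ≤ Q.card * D.card + e * (2 * k * Q.card) * D.card := Nat.add_le_add_left this _
      _ = _ := by ring
  obtain ⟨l, hl, hl2⟩ := exists_le_of_sum_le (card_pos.1 hQpos) h2
  have hlp := Nat.prime_of_mem_primesLE hl
  have h3 := sq_card_le D (fun x => x % l)
  have hDpos : 0 < D.card := by rw [hD]; positivity
  have h4 : D.card ≤ (1 + 2 * k * e) * (D.image (fun x => x % l)).card := by
    have : D.card * D.card ≤ (1 + 2 * k * e) * (D.image (fun x => x % l)).card * D.card := by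
      calc D.card * D.card = D.card ^ 2 := by ring
        _ ≤ (D.image (fun x => x % l)).card * pairs D l := h3
        _ ≤ (D.image (fun x => x % l)).card * ((1 + 2 * k * e) * D.card) :=
          Nat.mul_le_mul_left _ hl2
        _ = _ := by ring
    exact Nat.le_of_mul_le_mul_right this hDpos
  obtain ⟨D', k1, k2, k3⟩ := exists_subset_injOn_image_eq_of_surjOn (f := fun x => x % l)
    (D : Set ℕ) (D.image (fun x => x % l)) (by
      intro y hy
      simpa using hy)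
  have h5 : D'.card = (D.image (fun x => x % l)).card := by
    rw [← k3, card_image_of_injOn k2]
  refine ⟨l, D', by exact_mod_cast k1, hlp.two_le, Nat.le_of_mem_primesLE hl, k2, ?_, ?_⟩
  · rw [h5]
    refine (card_le_card (t := range l) ?_).trans (by simp)
    intro y hy
    obtain ⟨x, _, rfl⟩ := mem_image.1 hy
    exact mem_range.2 (Nat.mod_lt _ hlp.pos)
  · rw [h5, ← hD]; exact h4

lemma prod_injOn (P : Finset ℕ) (hP : ∀ p ∈ P, p.Prime) :
    Set.InjOn (fun S : Finset ℕ => ∏ p ∈ S, p) (P.powerset : Set (Finset ℕ)) := by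
  intro S hS S' hS' heq
  simp only [coe_powerset, Set.mem_preimage, Set.mem_powerset_iff, coe_subset] at hS hS'
  simp only at heq
  rw [← Nat.primeFactors_prod (s := S) (fun p hp => hP p (hS hp)),
    ← Nat.primeFactors_prod (s := S') (fun p hp => hP p (hS' hp)), heq]

lemma pow_le_choose' (y : ℕ) (hy : 0 < y) (r : ℕ) : ∀ n, r * y ≤ n → y ^ r ≤ n.choose r := by
  induction r with
  | zero => intro n _; simp
  | succ r ih =>
    intro n hn
    have h0 : (r + 1) * y = r * y + y := by ring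
    obtain ⟨m, rfl⟩ : ∃ m, n = m + 1 := ⟨n - 1, by omega⟩
    have h1 := ih m (by omega)
    have h2 := Nat.add_one_mul_choose_eq m r
    have h3 : y ^ (r + 1) * (r + 1) ≤ (m + 1).choose (r + 1) * (r + 1) := by
      rw [← h2]
      calc y ^ (r + 1) * (r + 1) = ((r + 1) * y) * y ^ r := by ring
        _ ≤ (m + 1) * m.choose r := Nat.mul_le_mul hn h1
    exact Nat.le_of_mul_le_mul_right h3 (by omega)

lemma num1 (v : ℕ) (hv : 20 ≤ v) : 8208 * v ≤ 2 ^ v := by
  induction v, hv using Nat.le_induction with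
  | base => norm_num
  | succ v hv ih => rw [pow_succ]; omega

lemma num2 (v y n : ℕ) (hv : 20 ≤ v) (hy : 8208 * v ≤ y) (hn : y ^ 4 ≤ 16 * n) :
    80 * v * y ^ 2 + 200000000 * v ^ 2 ≤ n := by
  have h1 : (8208 * v) ^ 2 ≤ y ^ 2 := Nat.pow_le_pow_left hy 2
  have h2 : 2560 * v ≤ y ^ 2 := by nlinarith
  have h3 : 6400000000 ≤ y ^ 2 := by nlinarith
  have h4 : v ^ 2 ≤ y ^ 2 := Nat.pow_le_pow_left (by omega) 2
  have h5 : 2560 * v * y ^ 2 ≤ y ^ 2 * y ^ 2 := Nat.mul_le_mul_right _ h2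
  have h6 : 6400000000 * v ^ 2 ≤ y ^ 2 * y ^ 2 := Nat.mul_le_mul h3 h4
  have h7 : y ^ 4 = y ^ 2 * y ^ 2 := by ring
  nlinarith

theorem core (v n a b : ℕ) (hv : 20 ≤ v) (hn1 : 16 ^ v ≤ 16 * n) (hn2 : n < 16 ^ v)
    (hb1 : 2 ^ n ≤ b) (hb2 : b < 2 ^ (n + 1)) (ha : 0 < a) (hab : a * a ≤ b) :
    UF (3 * (6566401 * v + 4 * (512 * v))) ((a : ℚ) / b) := by
  classical
  have hy := num1 v hv
  have e16 : 16 ^ v = (2 ^ v) ^ 4 := by rw [← pow_mul, mul_comm, pow_mul]; norm_num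
  have e4 : 2 ^ (2 * v) = (2 ^ v) ^ 2 := by rw [← pow_mul, mul_comm]
  have e8 : 2 ^ (8 * v) = (2 ^ v) ^ 8 := by rw [← pow_mul, mul_comm]
  have e44 : 2 ^ (4 * v) = (2 ^ v) ^ 4 := by rw [← pow_mul, mul_comm]
  rw [e16] at hn1 hn2
  have hbig := num2 v (2 ^ v) n hv hy hn1
  rw [← e4] at hbig
  have hb0 : 0 < b := lt_of_lt_of_le (by positivity) hb1
  have hv2 : 20 * v ≤ v ^ 2 := by nlinarith
  set k := n / (64 * v) with hk
  have hk1 : 64 * v * k ≤ n := Nat.mul_div_le _ _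
  have hk2 : n < 64 * v * (k + 1) := Nat.lt_mul_div_succ _ (by omega)
  have hk3 : 3 ≤ k := (Nat.le_div_iff_mul_le (by omega)).2 (by omega)
  have hk4 : 1280 * k ≤ n := by nlinarith
  set vk := v * k with hvk
  have hk1' : 64 * vk ≤ n := by rw [hvk]; linarith
  have hk2' : n < 64 * vk + 64 * v := by rw [hvk]; linarith
  -- primes
  set Q := Nat.primesLE (2 ^ (8 * v)) with hQ
  have hQc : (2 ^ v) ^ 4 ≤ Q.card := by
    have h1 := pi_bound (8 * v) (by omega)
    have h2 : 2 * (8 * v) ≤ (2 ^ v) ^ 4 := by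
      calc 2 * (8 * v) ≤ 2 ^ v := by omega
        _ ≤ (2 ^ v) ^ 4 := Nat.le_self_pow (by norm_num) _
    have h3 : (2 ^ v) ^ 4 * (2 ^ v) ^ 4 ≤ (2 ^ v) ^ 4 * Q.card := by
      calc (2 ^ v) ^ 4 * (2 ^ v) ^ 4 = 2 ^ (8 * v) := by rw [e8]; ring
        _ ≤ 2 * (8 * v) * Q.card := h1
        _ ≤ _ := Nat.mul_le_mul_right _ h2
    exact Nat.le_of_mul_le_mul_left h3 (by positivity)
  obtain ⟨P, hPQ, hPc⟩ := exists_subset_card_eq (s := Q) (n := k) (by omega)
  obtain ⟨P', hP'Q, hP'c⟩ := exists_subset_card_eq (s := Q) (n := 2 ^ (2 * v)) (by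
    refine le_trans ?_ hQc
    rw [e4]
    exact Nat.pow_le_pow_right (by positivity) (by norm_num))
  have hprodle : ∀ S ⊆ Q, ∏ p ∈ S, p ≤ 2 ^ (8 * v * S.card) := by
    intro S hS
    rw [pow_mul]
    exact prod_le_pow_card _ _ _ (fun p hp => Nat.le_of_mem_primesLE (hS hp))
  have hprodpos : ∀ S ⊆ Q, 0 < ∏ p ∈ S, p :=
    fun S hS => prod_pos (fun p hp => (Nat.prime_of_mem_primesLE (hS hp)).pos)
  set MD := ∏ p ∈ P, p with hMD
  set MG := ∏ p ∈ P', p with hMG
  have hMDle : MD ≤ 2 ^ (8 * vk) := by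
    have := hprodle P hPQ
    rwa [hPc, mul_assoc] at this
  have hMGle : MG ≤ 2 ^ (8 * v * 2 ^ (2 * v)) := by
    have := hprodle P' hP'Q
    rwa [hP'c] at this
  have hMDpos : 0 < MD := hprodpos P hPQ
  have hMGpos : 0 < MG := hprodpos P' hP'Q
  set D := P.powerset.image (fun S : Finset ℕ => ∏ p ∈ S, p) with hD
  have hDc : D.card = 2 ^ k := by
    rw [hD, card_image_of_injOn (prod_injOn P (fun p hp => Nat.prime_of_mem_primesLE (hPQ hp))),
      card_powerset, hPc]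
  have hDdvd : ∀ e ∈ D, e ∣ MD := by
    intro e he
    obtain ⟨S, hS, rfl⟩ := mem_image.1 he
    exact prod_dvd_prod_of_subset _ _ _ (mem_powerset.1 hS)
  obtain ⟨l, D', hD'D, hl2, hlk, hinj, hD'l, hD'c⟩ := exists_ell D n k hk3 hDc (by
    intro x hx
    exact (Nat.le_of_dvd hMDpos (hDdvd x hx)).trans
      (hMDle.trans (Nat.pow_le_pow_right two_pos (by omega))))
  set d := D'.card with hd
  have hκ : 1 + 2 * k * n ≤ 2 ^ (8 * v) := by
    have h1 : 2 * k * n ≤ n * n := Nat.mul_le_mul_right _ (by omega)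
    have h2 : (n + 1) ^ 2 ≤ ((2 ^ v) ^ 4) ^ 2 := Nat.pow_le_pow_left hn2 2
    rw [e8]
    calc 1 + 2 * k * n ≤ (n + 1) ^ 2 := by nlinarith
      _ ≤ _ := h2
      _ = _ := by ring
  have hkd : 2 ^ k ≤ 2 ^ (8 * v) * d := hD'c.trans (Nat.mul_le_mul_right _ hκ)
  have hdpos : 0 < d := by
    rcases Nat.eq_zero_or_pos d with h | h
    · rw [h] at hkd
      have : 0 < 2 ^ k := by positivity
      omega
    · exact h
  -- dilates
  set G := (powersetCard (8208 * v) P').image (fun S : Finset ℕ => ∏ p ∈ S, p) with hG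
  have hGc : 2 ^ (8208 * v ^ 2) ≤ G.card := by
    rw [hG, card_image_of_injOn, card_powersetCard, hP'c]
    · have := pow_le_choose' (2 ^ v) (by positivity) (8208 * v) (2 ^ (2 * v)) (by
        rw [e4, pow_two]; exact Nat.mul_le_mul_right _ hy)
      rw [← pow_mul] at this
      convert this using 2
      ring
    · refine (prod_injOn P' (fun p hp => Nat.prime_of_mem_primesLE (hP'Q hp))).mono ?_
      intro S hS
      simp only [mem_coe, mem_powersetCard, mem_powerset] at hS ⊢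
      exact hS.1
  have hGp : ∀ g ∈ G, g ≤ 2 ^ (65664 * v ^ 2) ∧ g ∣ MG := by
    intro g hg
    obtain ⟨S, hS, rfl⟩ := mem_image.1 hg
    rw [mem_powersetCard] at hS
    refine ⟨?_, prod_dvd_prod_of_subset _ _ _ hS.1⟩
    have := hprodle S (hS.1.trans hP'Q)
    rw [hS.2] at this
    convert this using 2
    ring
  -- the digits for `U`
  set MU := (2 ^ (2 * v)).factorial * (2 ^ (2 * v)) ^ (6566401 * v) with hMU
  have hMUpos : 0 < MU := Nat.mul_pos (Nat.factorial_pos _) (by positivity)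
  have hMUle : MU ≤ 2 ^ (2 * v * 2 ^ (2 * v) + 13132802 * v ^ 2) := by
    rw [pow_add, hMU]
    refine Nat.mul_le_mul ?_ ?_
    · rw [pow_mul 2 (2 * v)]
      exact Nat.factorial_le_pow _
    · rw [← pow_mul]
      exact Nat.pow_le_pow_right two_pos (le_of_eq (by ring))
  have hU : ∀ u ≤ (2 ^ (65664 * v ^ 2)) ^ 200, SD MU (6566401 * v) u := by
    intro u hu
    refine digits_U _ _ (by positivity) u (lt_of_le_of_lt hu ?_)
    rw [← pow_mul, ← pow_mul]
    refine Nat.pow_lt_pow_right one_lt_two ?_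
    have : 2 * v * (6566401 * v) = 13132802 * v ^ 2 := by ring
    omega
  -- general counting statement
  have hcount : ∀ (W M Y : ℕ) (F : Finset ℕ), (∀ x ∈ F, SD W (512 * v) x ∧ x ≤ 2 ^ (6 * n)) →
      F.Nonempty → MG * W ∣ M → MU ∣ M → Y ≤ 2 ^ (4096 * v ^ 2) * F.card → Y ≤ 2 ^ (8 * n) →
      100 * nbad M (6566401 * v + 4 * (512 * v)) Y ≤ 3 * Y := by
    intro W M Y F h1 h2 h3 h4 h5 h6
    refine good_count W M (512 * v) (6566401 * v) (6 * n) Y (2 ^ (4096 * v ^ 2)) (4 * v + 10)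
      (2 ^ (65664 * v ^ 2)) F G h1 h2
      (fun g hg => ⟨(hGp g hg).1, (Nat.mul_dvd_mul_right (hGp g hg).2 W).trans h3⟩)
      ((dvd_mul_left _ _).trans h3) ?_ (fun u hu => (hU u hu).mono h4 le_rfl) h5 ?_ ?_
    · calc 2 = 2 ^ 1 := rfl
        _ ≤ _ := Nat.pow_le_pow_right two_pos (by omega)
    · have k1 : Real.log Y ≤ 8 * n := by
        rcases Nat.eq_zero_or_pos Y with rfl | hY
        · simp
        have k2 : Real.log Y ≤ Real.log ((2 : ℝ) ^ (8 * n)) :=
          Real.log_le_log (by exact_mod_cast hY) (by exact_mod_cast h6)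
        rw [Real.log_pow] at k2
        have k3 : Real.log 2 ≤ 1 := by
          have := Real.log_le_sub_one_of_pos (x := 2) two_pos
          linarith
        have k4 : ((8 * n : ℕ) : ℝ) * Real.log 2 ≤ ((8 * n : ℕ) : ℝ) * 1 :=
          mul_le_mul_of_nonneg_left k3 (by positivity)
        push_cast at k2 k4
        linarith
      have k2 : 100 * (1 + 8 * n) ≤ 2 ^ (4 * v + 10) := by
        rw [pow_add, e44]; omega
      have k3 : (100 * (1 + 8 * n) : ℝ) ≤ 2 ^ (4 * v + 10) := by exact_mod_cast k2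
      linarith
    · refine lt_of_lt_of_le ?_ hGc
      have k1 : 6 * n + 1 ≤ 2 ^ (4 * v + 3) := by rw [pow_add, e44]; omega
      have k2 : (6 * n + 1) ^ (4 * v + 10) ≤ 2 ^ (4096 * v ^ 2) := by
        refine (Nat.pow_le_pow_left k1 _).trans ?_
        rw [← pow_mul]
        exact Nat.pow_le_pow_right two_pos (by nlinarith)
      have k3 : 100 * (2 ^ (4096 * v ^ 2) + (6 * n + 1) ^ (4 * v + 10))
          ≤ 2 ^ (4096 * v ^ 2 + 8) := by
        rw [pow_add 2 (4096 * v ^ 2)]; omega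
      refine lt_of_le_of_lt (Nat.pow_le_pow_left k3 2) ?_
      rw [← pow_mul]
      exact Nat.pow_lt_pow_right one_lt_two (by omega)
  -- the smallness of `a / b`
  have hR : a * (2 * MD * MD * MG * MU * 2 ^ k) ≤ b := by
    set ρ := 1 + 8 * vk + 8 * vk + 8 * v * 2 ^ (2 * v) + (2 * v * 2 ^ (2 * v) + 13132802 * v ^ 2)
      + k with hρ
    have h1 : 2 * MD * MD * MG * MU * 2 ^ k ≤ 2 ^ ρ := by
      rw [hρ, pow_add, pow_add, pow_add, pow_add, pow_add, pow_one]
      gcongr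
    have h2 : ρ + ρ ≤ n := by
      have : 80 * v * 2 ^ (2 * v) = 8 * (8 * v * 2 ^ (2 * v) + 2 * v * 2 ^ (2 * v)) := by ring
      omega
    have h3 : (a * 2 ^ ρ) * (a * 2 ^ ρ) ≤ b * b := by
      calc (a * 2 ^ ρ) * (a * 2 ^ ρ) = (a * a) * 2 ^ (ρ + ρ) := by rw [pow_add]; ring
        _ ≤ b * b := Nat.mul_le_mul hab ((Nat.pow_le_pow_right two_pos h2).trans hb1)
    exact (Nat.mul_le_mul_left _ h1).trans (Nat.mul_self_le_mul_self_iff.1 h3)
  set s := 256 * v with hs
  have hks : k * s = 256 * vk := by rw [hs, hvk]; ring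
  have hΛs : b * b ≤ (2 ^ k) ^ s := by
    calc b * b ≤ 2 ^ (n + 1) * 2 ^ (n + 1) := Nat.mul_le_mul hb2.le hb2.le
      _ ≤ _ := by
        rw [← pow_add, ← pow_mul]
        exact Nat.pow_le_pow_right two_pos (by omega)
  have hΛs' : (2 ^ k) ^ s ≤ 2 ^ (4 * n) := by
    rw [← pow_mul]
    exact Nat.pow_le_pow_right two_pos (by omega)
  have hls : l ^ s ≤ (2 ^ k) ^ s := Nat.pow_le_pow_left hlk _
  have hΛd : ∀ i ≤ 2 * s, (2 ^ k) ^ i ≤ 2 ^ (4096 * v ^ 2) * d ^ i := by
    intro i hi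
    refine (Nat.pow_le_pow_left hkd i).trans ?_
    rw [mul_pow, ← pow_mul]
    refine Nat.mul_le_mul_right _ (Nat.pow_le_pow_right two_pos ?_)
    calc 8 * v * i ≤ 8 * v * (2 * s) := Nat.mul_le_mul_left _ hi
      _ = _ := by rw [hs]; ring
  have hl4 : 4 * b ≤ l ^ s := by
    have h1 : (2 ^ k) ^ s ≤ 2 ^ (2048 * v ^ 2) * l ^ s := by
      refine (Nat.pow_le_pow_left (hkd.trans (Nat.mul_le_mul_left _ hD'l)) s).trans ?_
      rw [mul_pow, ← pow_mul]
      exact Nat.mul_le_mul_right _ (Nat.pow_le_pow_right two_pos (le_of_eq (by rw [hs]; ring)))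
    have h2 : 2 ^ (2048 * v ^ 2) * (4 * b) ≤ (2 ^ k) ^ s := by
      calc 2 ^ (2048 * v ^ 2) * (4 * b) ≤ 2 ^ (2048 * v ^ 2) * (2 ^ 2 * 2 ^ (n + 1)) :=
            Nat.mul_le_mul_left _ (by omega)
        _ ≤ _ := by
          rw [← pow_add, ← pow_add, ← pow_mul]
          exact Nat.pow_le_pow_right two_pos (by omega)
    exact Nat.le_of_mul_le_mul_left (h2.trans h1) (by positivity)
  set W := l ^ s * MD with hW
  set M := MG * W * MU with hM
  have hWle : W ≤ 2 ^ (4 * n + 8 * vk) := by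
    rw [pow_add]; exact Nat.mul_le_mul (hls.trans hΛs') hMDle
  obtain ⟨F, hFc, hF⟩ := digit_set D' MD l hl2 (fun e he => hDdvd e (hD'D he)) hMDpos hinj s
  have hFne : F.Nonempty := card_pos.1 (by rw [hFc]; positivity)
  have hFle : ∀ f ∈ F, f + 1 ≤ W := by
    intro f hf
    have := (hF f hf).2
    rw [hW, mul_comm]; omega
  have hsmall : ∀ Y ≤ (2 ^ k) ^ s, 100 * nbad M (6566401 * v + 4 * (512 * v)) Y ≤ 3 * Y := by
    intro Y hY
    refine hcount W M Y F (fun x hx => ⟨(hF x hx).1.mono dvd_rfl (by omega), ?_⟩) hFne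
      (dvd_mul_right _ _) (dvd_mul_left _ _) ?_ ?_
    · have := hFle x hx
      exact (by omega : x ≤ W).trans (hWle.trans (Nat.pow_le_pow_right two_pos (by omega)))
    · rw [hFc]; exact hY.trans (hΛd s (by omega))
    · exact hY.trans (hΛs'.trans (Nat.pow_le_pow_right two_pos (by omega)))
  have hone : 1 ≤ 2 ^ k := Nat.one_le_two_pow
  have hR1 : a * (MD * MG * MU) ≤ b := by
    refine le_trans ?_ hR
    calc a * (MD * MG * MU) = a * (1 * 1 * MD * MG * MU * 1) := by ring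
      _ ≤ _ := by gcongr <;> omega
  have hMDb : MD ≤ b := by
    refine le_trans ?_ hR1
    calc MD = 1 * (MD * 1 * 1) := by ring
      _ ≤ _ := by gcongr <;> omega
  refine split a b M _ ha hb0 ?_ ?_ (fun Y hY => hsmall Y (hY.trans hΛs)) ?_
  · refine hl4.trans ?_
    calc l ^ s = 1 * (l ^ s * 1) * 1 := by ring
      _ ≤ _ := by rw [hM, hW]; gcongr <;> omega
  · refine hsmall _ (le_trans ?_ hls)
    apply Nat.div_le_of_le_mul
    calc a * M = a * (MD * MG * MU) * l ^ s := by rw [hM, hW]; ring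
      _ ≤ 2 * b * l ^ s := Nat.mul_le_mul_right _ (by omega)
  · intro h hh1 hh2
    set s1 := Nat.log (2 ^ k) (b / MD) with hs1
    have hΛ1 : 1 < 2 ^ k := Nat.one_lt_two_pow (by omega)
    have hq : 0 < b / MD := Nat.div_pos hMDb hMDpos
    have t1 : (2 ^ k) ^ s1 ≤ b / MD := Nat.pow_log_le_self _ hq.ne'
    have t2 : b / MD < (2 ^ k) ^ (s1 + 1) := Nat.lt_pow_succ_log_self hΛ1 _
    have t3 : MD * (2 ^ k) ^ s1 ≤ b := (Nat.mul_le_mul_left _ t1).trans (Nat.mul_div_le _ _)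
    have t4 : b ≤ MD * (2 ^ k) ^ (s1 + 1) :=
      (Nat.lt_mul_div_succ b hMDpos).le.trans (Nat.mul_le_mul_left _ t2)
    have t5 : s1 ≤ s := by
      have : (2 ^ k) ^ s1 ≤ (2 ^ k) ^ s :=
        t1.trans ((Nat.div_le_self _ _).trans ((Nat.le_mul_self b).trans hΛs))
      exact (Nat.pow_le_pow_iff_right hΛ1).1 this
    obtain ⟨F1, hF1c, hF1⟩ :=
      digit_set D' MD l hl2 (fun e he => hDdvd e (hD'D he)) hMDpos hinj s1
    have hF1lt : ∀ f ∈ F1, f < h := by
      intro f hf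
      have k1 := (hF1 f hf).2
      have k2 : MD * l ^ s1 ≤ MD * (2 ^ k) ^ s1 :=
        Nat.mul_le_mul_left _ (Nat.pow_le_pow_left hlk _)
      omega
    set F2 := (F1 ×ˢ F).image (fun p => p.1 + h * p.2) with hF2
    have hF2c : F2.card = d ^ (s1 + s) := by
      rw [hF2, card_image_of_injOn, card_product, hF1c, hFc, pow_add]
      rintro ⟨e, f⟩ hp ⟨e', f'⟩ hp' heq
      simp only [coe_product, Set.mem_prod, mem_coe] at hp hp' heq
      have h3 : e = e' := by
        have := congrArg (fun x => x % h) heq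
        simp only [Nat.add_mul_mod_self_left] at this
        rwa [Nat.mod_eq_of_lt (hF1lt e hp.1), Nat.mod_eq_of_lt (hF1lt e' hp'.1)] at this
      subst h3
      have h5 : h * f = h * f' := by omega
      rw [Nat.eq_of_mul_eq_mul_left (by omega) h5]
    have hY : 2 * (a * M) ≤ (2 ^ k) ^ (s1 + s) := by
      have k1 : 2 * a * (MD * MG * MU) * (MD * 2 ^ k) ≤ (2 ^ k) ^ s1 * (MD * 2 ^ k) := by
        calc 2 * a * (MD * MG * MU) * (MD * 2 ^ k) = a * (2 * MD * MD * MG * MU * 2 ^ k) := by ring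
          _ ≤ MD * (2 ^ k) ^ (s1 + 1) := hR.trans t4
          _ = _ := by ring
      have k2 := Nat.le_of_mul_le_mul_right k1 (by positivity)
      calc 2 * (a * M) = 2 * a * (MD * MG * MU) * l ^ s := by rw [hM, hW]; ring
        _ ≤ (2 ^ k) ^ s1 * (2 ^ k) ^ s := Nat.mul_le_mul k2 hls
        _ = _ := by rw [pow_add]
    refine hcount (h * W) (h * M) _ F2 ?_ (card_pos.1 (by rw [hF2c]; positivity)) ?_ ?_ ?_ ?_
    · intro x hx
      obtain ⟨⟨e, f⟩, hp, rfl⟩ := mem_image.1 hx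
      rw [mem_product] at hp
      refine ⟨?_, ?_⟩
      · have q1 : SD (h * W) s1 e := (hF1 e hp.1).1.mono
          ((Nat.mul_dvd_mul_right (pow_dvd_pow l t5) MD).mul_left h) le_rfl
        have q2 : SD (h * W) s (h * f) := (hF f hp.2).1.mul h
        exact (q1.add q2).mono dvd_rfl (by omega)
      · have k1 := hF1lt e hp.1
        have k2 := hFle f hp.2
        simp only
        calc e + h * f ≤ h * (f + 1) := by rw [mul_add]; omega
          _ ≤ 2 ^ (n + 2) * 2 ^ (4 * n + 8 * vk) :=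
            Nat.mul_le_mul (by rw [pow_succ]; omega) (k2.trans hWle)
          _ ≤ _ := by
            rw [← pow_add]
            exact Nat.pow_le_pow_right two_pos (by omega)
    · exact ⟨MU, by rw [hM]; ring⟩
    · exact ⟨h * (MG * W), by rw [hM]; ring⟩
    · rw [hF2c]; exact hY.trans (hΛd _ (by omega))
    · refine hY.trans ?_
      calc (2 ^ k) ^ (s1 + s) ≤ (2 ^ k) ^ (s + s) := Nat.pow_le_pow_right (by omega) (by omega)
        _ ≤ 2 ^ (4 * n) * 2 ^ (4 * n) := by rw [pow_add]; exact Nat.mul_le_mul hΛs' hΛs'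
        _ = _ := by rw [← pow_add]; congr 1; ring

end Crest.Agent.H5.Egy
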