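import Crest.Agent.H5.Egy.Count

set_option autoImplicit false

namespace Crest.Agent.H5.Egy

open Finset

lemma digit_set (D : Finset ℕ) (MD l : ℕ) (hl : 2 ≤ l) (hD : ∀ e ∈ D, e ∣ MD) (hMD : 0 < MD)
    (hinj : Set.InjOn (fun e => e % l) D) (i : ℕ) :
    ∃ F : Finset ℕ, F.card = D.card ^ i ∧ ∀ f ∈ F, SD (l ^ i * MD) i f ∧ f + MD ≤ MD * l ^ i := by
  induction i with
  | zero => exact ⟨{0}, by simp, by simp [SD.zero]⟩
  | succ i ih =>
    obtain ⟨F, h1, h2⟩ := ih
    refine ⟨(D ×ˢ F).image (fun p => p.1 + l * p.2), ?_, ?_⟩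
    · rw [card_image_of_injOn, card_product, h1, pow_succ, mul_comm]
      rintro ⟨e, f⟩ hp ⟨e', f'⟩ hp' heq
      simp only [coe_product, Set.mem_prod, mem_coe] at hp hp' heq
      have h3 : e % l = e' % l := by
        have := congrArg (fun x => x % l) heq
        simpa using this
      have h4 : e = e' := hinj hp.1 hp'.1 h3
      subst h4
      have h5 : l * f = l * f' := by omega
      rw [Nat.eq_of_mul_eq_mul_left (by omega) h5]
    · intro x hx
      obtain ⟨⟨e, f⟩, hp, rfl⟩ := mem_image.1 hx
      rw [mem_product] at hp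
      obtain ⟨k1, k2⟩ := h2 f hp.2
      have he : e ≤ MD := Nat.le_of_dvd hMD (hD e hp.1)
      refine ⟨?_, ?_⟩
      · have s1 : SD (l ^ (i + 1) * MD) 1 e := SD.single ((hD e hp.1).mul_left _)
        have s2 : SD (l ^ (i + 1) * MD) i (l * f) :=
          (k1.mul l).mono (dvd_of_eq (by ring)) le_rfl
        exact (s1.add s2).mono dvd_rfl (by omega)
      · have h3 : l * (f + MD) ≤ l * (MD * l ^ i) := Nat.mul_le_mul_left _ k2
        have h4 : 2 * MD ≤ l * MD := Nat.mul_le_mul_right _ hl
        simp only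
        calc e + l * f + MD ≤ l * f + l * MD := by omega
          _ = l * (f + MD) := by ring
          _ ≤ _ := h3
          _ = _ := by ring

lemma digits_U (β t : ℕ) (hβ : 0 < β) : ∀ u, u < β ^ t → SD (β.factorial * β ^ t) t u := by
  induction t with
  | zero =>
    intro u hu
    have : u = 0 := by simpa using hu
    subst this
    exact SD.zero _ _
  | succ t ih =>
    intro u hu
    have h1 : u / β < β ^ t := by
      rw [Nat.div_lt_iff_lt_mul hβ, ← pow_succ]; exact hu
    have s2 : SD (β.factorial * β ^ (t + 1)) t (β * (u / β)) :=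
      ((ih _ h1).mul β).mono (dvd_of_eq (by ring)) le_rfl
    have s1 : SD (β.factorial * β ^ (t + 1)) 1 (u % β) := by
      rcases Nat.eq_zero_or_pos (u % β) with h | h
      · rw [h]; exact SD.zero _ _
      · exact SD.single ((Nat.dvd_factorial h (Nat.mod_lt u hβ).le).mul_right _)
    have := s1.add s2
    rw [Nat.mod_add_div] at this
    exact this.mono dvd_rfl (by omega)

open Classical in
/-- number of bad moduli up to `Y` -/
noncomputable def nbad (M T Y : ℕ) : ℕ := ((Ioc 0 Y).filter (fun m => ¬ Good M T m)).card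

open Classical in
theorem split (a b M T : ℕ) (ha : 0 < a) (hb : 0 < b) (hM : 4 * b ≤ M)
    (h0 : 100 * nbad M T (a * M / (2 * b)) ≤ 3 * (a * M / (2 * b)))
    (h1 : ∀ Y ≤ b * b, 100 * nbad M T Y ≤ 3 * Y)
    (h2 : ∀ h, b ≤ h → h < 2 * b → 100 * nbad (h * M) T (2 * (a * M)) ≤ 3 * (2 * (a * M))) :
    UF (3 * T) ((a : ℚ) / b) := by
  set P := a * M with hP
  have hP4 : 4 * b ≤ P := hM.trans (Nat.le_mul_of_pos_left _ ha)
  have hM0 : 0 < M := by omega
  set X := P / (2 * b) with hX
  have hX1 : 2 * b * X ≤ P := Nat.mul_div_le _ _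
  have hX2 : P < 2 * b * (X + 1) := Nat.lt_mul_div_succ _ (by omega)
  have hXpos : 0 < X := Nat.div_pos (by omega) (by omega)
  have hX3 : P ≤ 4 * (b * X) := by nlinarith
  have hg : 0 < Nat.gcd P b := Nat.gcd_pos_of_pos_right _ hb
  set A := P / Nat.gcd P b with hA
  set B := b / Nat.gcd P b with hB
  have hcop : Nat.Coprime A B := Nat.coprime_div_gcd_div_gcd hg
  have hAg : A * Nat.gcd P b = P := Nat.div_mul_cancel (Nat.gcd_dvd_left _ _)
  have hBg : B * Nat.gcd P b = b := Nat.div_mul_cancel (Nat.gcd_dvd_right _ _)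
  have hBpos : 0 < B := Nat.pos_of_mul_pos_right (by rw [hBg]; exact hb)
  have hBb : B ≤ b := Nat.div_le_self _ _
  have hAB : A * b = P * B := by
    calc A * b = A * (B * Nat.gcd P b) := by rw [hBg]
      _ = (A * Nat.gcd P b) * B := by ring
      _ = P * B := by rw [hAg]
  set I := range B ×ˢ (range b ×ˢ range X) with hI
  set r : ℕ × ℕ × ℕ → ℕ := fun x => (A * (b + x.1)) % B + B * x.2.1 with hr
  set r' : ℕ × ℕ × ℕ → ℕ := fun x => A * (b + x.1) / B - x.2.1 - (b + x.1) * x.2.2 with hr'
  have hlow : ∀ x ∈ I, x.2.1 + (b + x.1) * x.2.2 ≤ A * (b + x.1) / B := by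
    rintro ⟨i, j, q⟩ hx
    simp only [hI, mem_product, mem_range] at hx
    obtain ⟨hi, hj, hq⟩ := hx
    simp only
    rw [Nat.le_div_iff_mul_le hBpos]
    have k1 : 2 * ((j + (b + i) * q) * b) ≤ 2 * (P * (b + i)) := by
      have e1 : (b + i) * q * (2 * b) ≤ (b + i) * P := by
        calc (b + i) * q * (2 * b) = (b + i) * (2 * b * q) := by ring
          _ ≤ (b + i) * (2 * b * X) :=
            Nat.mul_le_mul_left _ (Nat.mul_le_mul_left _ hq.le)
          _ ≤ (b + i) * P := Nat.mul_le_mul_left _ hX1
      have e2 : j * (2 * b) ≤ (b + i) * P := Nat.mul_le_mul (by omega) (by omega)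
      calc 2 * ((j + (b + i) * q) * b) = j * (2 * b) + (b + i) * q * (2 * b) := by ring
        _ ≤ (b + i) * P + (b + i) * P := Nat.add_le_add e2 e1
        _ = _ := by ring
    have k2 : (j + (b + i) * q) * b ≤ P * (b + i) := by omega
    have k3 : (j + (b + i) * q) * B * b ≤ A * (b + i) * b := by
      calc (j + (b + i) * q) * B * b = (j + (b + i) * q) * b * B := by ring
        _ ≤ P * (b + i) * B := Nat.mul_le_mul_right _ k2
        _ = (P * B) * (b + i) := by ring
        _ = _ := by rw [← hAB]; ring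
    exact Nat.le_of_mul_le_mul_right k3 hb
  have hup : ∀ i < B, A * (b + i) / B ≤ 2 * P := by
    intro i hi
    apply Nat.div_le_of_le_mul
    have k3 : A * (b + i) * b ≤ B * (2 * P) * b := by
      calc A * (b + i) * b = (A * b) * (b + i) := by ring
        _ = (P * B) * (b + i) := by rw [hAB]
        _ ≤ (P * B) * (2 * b) := Nat.mul_le_mul_left _ (by omega)
        _ = _ := by ring
    exact Nat.le_of_mul_le_mul_right k3 hb
  set I1 := I.filter (fun x => ¬ Good M T x.2.2) with hI1
  set I2 := I.filter (fun x => ¬ Good M T (r x)) with hI2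
  set I3 := I.filter (fun x => ¬ Good ((b + x.1) * M) T (r' x)) with hI3
  have c1 : I1.card ≤ B * (b * nbad M T X) := by
    have : I1 ⊆ range B ×ˢ (range b ×ˢ ((Ioc 0 X).filter (fun m => ¬ Good M T m))) := by
      rintro ⟨i, j, q⟩ hx
      simp only [hI1, hI, mem_filter, mem_product, mem_range, mem_Ioc] at hx ⊢
      refine ⟨hx.1.1, hx.1.2.1, ⟨?_, hx.1.2.2.le⟩, hx.2⟩
      rcases Nat.eq_zero_or_pos q with rfl | h
      · exact (hx.2 (Good.zero _ _)).elim
      · exact h
    have := card_le_card this
    rwa [card_product, card_product, card_range, card_range] at this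
  have c2 : I2.card ≤ nbad M T (B * b) * X := by
    have := card_le_card_of_injOn (s := I2)
      (t := ((Ioc 0 (B * b)).filter (fun m => ¬ Good M T m)) ×ˢ range X)
      (fun x => (r x, x.2.2)) (by
        rintro ⟨i, j, q⟩ hx
        simp only [hI2, hI, coe_filter, mem_product, mem_range, Set.mem_ofPred_eq] at hx
        simp only [coe_product, coe_filter, Set.mem_prod, mem_Ioc, Set.mem_ofPred_eq, coe_range,
          Set.mem_Iio]
        refine ⟨⟨⟨?_, ?_⟩, hx.2⟩, hx.1.2.2⟩
        · rcases Nat.eq_zero_or_pos (r (i, j, q)) with h | h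
          · exact (hx.2 (h ▸ Good.zero _ _)).elim
          · exact h
        · have k1 : (A * (b + i)) % B < B := Nat.mod_lt _ hBpos
          have k2 : B * (j + 1) ≤ B * b := Nat.mul_le_mul_left _ hx.1.2.1
          simp only [hr]
          rw [mul_add, mul_one] at k2
          omega)
      (by
        rintro ⟨i, j, q⟩ hx ⟨i', j', q'⟩ hx' heq
        simp only [hI2, hI, coe_filter, mem_product, mem_range, Set.mem_ofPred_eq] at hx hx'
        simp only [Prod.mk.injEq, hr] at heq
        obtain ⟨e1, e2⟩ := heq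
        have k1 : (A * (b + i)) % B = (A * (b + i')) % B := by
          have := congrArg (fun x => x % B) e1
          simpa using this
        have k2 : j = j' := by
          rw [k1] at e1
          exact Nat.eq_of_mul_eq_mul_left hBpos (by omega)
        have k3 : b + i ≡ b + i' [MOD B] := Nat.ModEq.cancel_left_of_coprime hcop.symm k1
        have k4 : i ≡ i' [MOD B] := Nat.ModEq.add_left_cancel' b k3
        have k5 : i = i' := Nat.ModEq.eq_of_lt_of_lt k4 hx.1.1 hx'.1.1
        rw [k2, k5, e2])
    rwa [card_product, card_range] at this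
  have c3 : 100 * I3.card ≤ B * (3 * (2 * P)) := by
    rw [card_eq_sum_card_fiberwise (f := fun x : ℕ × ℕ × ℕ => x.1) (s := I3) (t := range B)
      (by
        intro x hx
        simp only [hI3, hI, coe_filter, mem_product, mem_range, Set.mem_ofPred_eq] at hx
        simpa using hx.1.1), mul_sum]
    refine (sum_le_card_nsmul _ _ (3 * (2 * P)) ?_).trans (by simp)
    intro i hi
    rw [mem_range] at hi
    refine le_trans (Nat.mul_le_mul_left _ ?_) (h2 (b + i) (by omega) (by omega))
    refine card_le_card_of_injOn r' ?_ ?_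
    · rintro ⟨i', j, q⟩ hx
      simp only [hI3, coe_filter, mem_filter, Set.mem_ofPred_eq] at hx
      obtain ⟨⟨k1, k2⟩, k3⟩ := hx
      subst k3
      simp only [coe_filter, mem_Ioc, Set.mem_ofPred_eq]
      refine ⟨⟨?_, ?_⟩, k2⟩
      · rcases Nat.eq_zero_or_pos (r' (i', j, q)) with h | h
        · exact (k2 (h ▸ Good.zero _ _)).elim
        · exact h
      · have := hup i' hi
        simp only [hr']
        omega
    · rintro ⟨i1, j, q⟩ hx ⟨i2, j', q'⟩ hx' heq
      simp only [hI3, coe_filter, mem_filter, Set.mem_ofPred_eq] at hx hx'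
      obtain ⟨⟨k1, -⟩, k3⟩ := hx
      obtain ⟨⟨k1', -⟩, k3'⟩ := hx'
      subst k3
      subst k3'
      have l1 := hlow _ k1
      have l2 := hlow _ k1'
      simp only [hI, mem_product, mem_range] at k1 k1'
      simp only [hr'] at heq l1 l2
      have e : j + (b + i2) * q = j' + (b + i2) * q' := by omega
      have e1 : j = j' := by
        have := congrArg (fun x => x % (b + i2)) e
        simp only [Nat.add_mul_mod_self_left] at this
        rwa [Nat.mod_eq_of_lt (by omega), Nat.mod_eq_of_lt (by omega)] at this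
      have e2 : q = q' := Nat.eq_of_mul_eq_mul_left (by omega : 0 < b + i2) (by omega)
      rw [e1, e2]
  have hcard : (I1 ∪ I2 ∪ I3).card < I.card := by
    have k0 : I.card = B * (b * X) := by simp [hI]
    have k1 := (card_union_le (I1 ∪ I2) I3).trans (Nat.add_le_add_right (card_union_le I1 I2) _)
    have k2 : 100 * I1.card ≤ 3 * (B * (b * X)) := by
      calc 100 * I1.card ≤ 100 * (B * (b * nbad M T X)) := Nat.mul_le_mul_left _ c1
        _ = B * b * (100 * nbad M T X) := by ring
        _ ≤ B * b * (3 * X) := Nat.mul_le_mul_left _ h0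
        _ = _ := by ring
    have k3 : 100 * I2.card ≤ 3 * (B * (b * X)) := by
      calc 100 * I2.card ≤ 100 * (nbad M T (B * b) * X) := Nat.mul_le_mul_left _ c2
        _ = (100 * nbad M T (B * b)) * X := by ring
        _ ≤ (3 * (B * b)) * X :=
          Nat.mul_le_mul_right _ (h1 _ (Nat.mul_le_mul_right _ hBb))
        _ = _ := by ring
    have k4 : 100 * I3.card ≤ 24 * (B * (b * X)) := by
      calc 100 * I3.card ≤ B * (3 * (2 * P)) := c3
        _ ≤ B * (3 * (2 * (4 * (b * X)))) := by gcongr
        _ = _ := by ring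
    have k5 : 0 < B * (b * X) := by positivity
    omega
  obtain ⟨⟨i, j, q⟩, hx, hnot⟩ := exists_mem_notMem_of_card_lt_card hcard
  simp only [mem_union, not_or, hI1, hI2, hI3, mem_filter, not_and, not_not] at hnot
  obtain ⟨⟨g1, g2⟩, g3⟩ := hnot
  have u1 := (g1 hx).uf dvd_rfl hM0
  have u2 := (g2 hx).uf (Den := B * ((b + i) * M)) ((dvd_mul_left _ _).mul_left _) (by positivity)
  have u3 := (g3 hx).uf dvd_rfl (by positivity)
  have l1 := hlow _ hx
  have e1 : B * (r' (i, j, q) + (b + i) * q) + r (i, j, q) = A * (b + i) := by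
    simp only [hr, hr'] at l1 ⊢
    have k1 : A * (b + i) / B - j - (b + i) * q + (b + i) * q = A * (b + i) / B - j := by omega
    have k2 := Nat.div_add_mod (A * (b + i)) B
    have k3 : B * (A * (b + i) / B - j) + B * j = B * (A * (b + i) / B) := by
      rw [← mul_add]; congr 1; omega
    rw [k1]; omega
  have e2 : (B : ℚ) * (r' (i, j, q) + (b + i) * q) + r (i, j, q) = A * (b + i) := by
    exact_mod_cast e1
  have e3 : (A : ℚ) * b = a * M * B := by rw [hP] at hAB; exact_mod_cast hAB
  have := (u1.add u2).add u3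
  convert this using 1
  · ring
  · have hb' : (b : ℚ) ≠ 0 := by positivity
    have hB' : (B : ℚ) ≠ 0 := by positivity
    have hM' : (M : ℚ) ≠ 0 := by positivity
    have hh : ((b : ℚ) + i) ≠ 0 := by positivity
    push_cast
    field_simp
    linear_combination (-(b : ℚ)) * e2 - ((b : ℚ) + i) * e3

end Crest.Agent.H5.Egy
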